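import Vale.Agent.P031.Interfaces

/-!
# Completely multiplicative weights and Euler products over levels
-/

open Finset
open scoped Classical

namespace Vale.Agent.P031

lemma mem_cell {p k : ℕ} : p ∈ cell k ↔ p.Prime ∧ kap p = k := by
  unfold cell
  simp only [mem_filter, mem_range, and_iff_right_iff_imp]
  rintro ⟨hp, hk⟩
  have h1 : (1 : ℝ) < p := by exact_mod_cast hp.one_lt
  have hl : 0 < Real.log p := Real.log_pos h1
  have h2 : Real.log (Real.log p) < (k : ℝ) + 1 := by
    have := Nat.lt_floor_add_one (Real.log (Real.log (p : ℝ)))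
    rw [show ⌊Real.log (Real.log (p : ℝ))⌋₊ = k from hk] at this
    exact this
  have h3 : (p : ℝ) ≤ Real.exp (Real.exp ((k : ℝ) + 1)) := by
    rw [← Real.exp_log (by linarith : (0 : ℝ) < p)]
    apply Real.exp_le_exp.2
    rw [← Real.exp_log hl]
    exact Real.exp_le_exp.2 h2.le
  exact Nat.lt_succ_of_le (Nat.le_floor h3)

/-- A prime at level `s ≥ 1` is at least `exp (exp s)`. -/
lemma exp_exp_le {p s : ℕ} (hs : 1 ≤ s) (h : s ≤ kap p) :
    Real.exp (Real.exp (s : ℝ)) ≤ p := by
  have h1 : (s : ℝ) ≤ Real.log (Real.log p) := by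
    have h0 : 0 ≤ Real.log (Real.log (p : ℝ)) := by
      by_contra hn
      push Not at hn
      have : kap p = 0 := Nat.floor_eq_zero.2 (by linarith)
      omega
    exact le_trans (by exact_mod_cast h) (Nat.floor_le h0)
  have hs1 : (1 : ℝ) ≤ s := by exact_mod_cast hs
  rcases le_or_gt (Real.log (p : ℝ)) 0 with hl | hl
  · exfalso
    have hp0 : Real.log (p : ℝ) = 0 := le_antisymm hl (Real.log_natCast_nonneg p)
    rw [hp0, Real.log_zero] at h1
    linarith
  · have hp : (0 : ℝ) < p := by
      rcases Nat.eq_zero_or_pos p with h0 | h0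
      · simp [h0] at hl
      · exact_mod_cast h0
    rw [← Real.exp_log hp]
    apply Real.exp_le_exp.2
    rw [← Real.exp_log hl]
    exact Real.exp_le_exp.2 h1

/-- The completely multiplicative function with prime values `z`. -/
def wt (z : ℕ → ℝ) (n : ℕ) : ℝ := (n.primeFactorsList.map z).prod

lemma wt_one (z : ℕ → ℝ) : wt z 1 = 1 := by simp [wt]

lemma wt_prime (z : ℕ → ℝ) {p : ℕ} (hp : p.Prime) : wt z p = z p := by
  simp [wt, Nat.primeFactorsList_prime hp]

lemma wt_mul (z : ℕ → ℝ) {a b : ℕ} (ha : a ≠ 0) (hb : b ≠ 0) :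
    wt z (a * b) = wt z a * wt z b := by
  unfold wt
  rw [((Nat.perm_primeFactorsList_mul ha hb).map z).prod_eq, List.map_append, List.prod_append]

lemma wt_pow (z : ℕ → ℝ) {p : ℕ} (hp : p.Prime) (a : ℕ) : wt z (p ^ a) = z p ^ a := by
  induction a with
  | zero => simp [wt_one]
  | succ a ih => rw [pow_succ, wt_mul z (pow_ne_zero a hp.ne_zero) hp.ne_zero, ih, wt_prime z hp,
      pow_succ]

lemma wt_nonneg (z : ℕ → ℝ) {n : ℕ} (h : ∀ p ∈ n.primeFactorsList, 0 ≤ z p) : 0 ≤ wt z n := by
  unfold wt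
  apply List.prod_nonneg
  intro x hx
  obtain ⟨p, hp, rfl⟩ := List.mem_map.1 hx
  exact h p hp

lemma wt_prod (z : ℕ → ℝ) {ι : Type*} (s : Finset ι) (f : ι → ℕ) (h : ∀ i ∈ s, f i ≠ 0) :
    wt z (∏ i ∈ s, f i) = ∏ i ∈ s, wt z (f i) := by
  induction s using Finset.induction with
  | empty => simp [wt_one]
  | @insert a t ha ih =>
    rw [prod_insert ha, prod_insert ha, wt_mul z (h a (mem_insert_self a t))
      (prod_ne_zero_iff.2 fun i hi => h i (mem_insert_of_mem hi)),
      ih fun i hi => h i (mem_insert_of_mem hi)]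

/-- Finite Euler product bound. -/
lemma euler_sum (z : ℕ → ℝ) (S : Finset ℕ) (hS : ∀ p ∈ S, p.Prime)
    (hz : ∀ p ∈ S, 0 ≤ z p ∧ z p < p) (M : Finset ℕ)
    (hM : ∀ n ∈ M, 0 < n ∧ n.primeFactors ⊆ S) :
    ∑ n ∈ M, wt z n / n ≤ ∏ p ∈ S, (1 - z p / p)⁻¹ := by
  induction S using Finset.induction generalizing M with
  | empty =>
    simp only [prod_empty]
    have : M ⊆ {1} := by
      intro n hn
      have h := hM n hn
      have : n.primeFactors = ∅ := subset_empty.1 h.2
      rcases Nat.primeFactors_eq_empty.1 this with h0 | h0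
      · omega
      · simp [h0]
    refine le_trans (sum_le_sum_of_subset_of_nonneg this ?_) (by simp [wt_one])
    intro i hi _
    simp only [Finset.mem_singleton] at hi
    simp [hi, wt_one]
  | @insert p T hp ih =>
    have hpp : p.Prime := hS p (mem_insert_self p T)
    have hT : ∀ q ∈ T, q.Prime := fun q hq => hS q (mem_insert_of_mem hq)
    have hzT : ∀ q ∈ T, 0 ≤ z q ∧ z q < q := fun q hq => hz q (mem_insert_of_mem hq)
    obtain ⟨hz0, hz1⟩ := hz p (mem_insert_self p T)
    have hpR : (0 : ℝ) < p := by exact_mod_cast hpp.pos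
    set enc : ℕ → ℕ × ℕ := fun n => (n.factorization p, n / p ^ n.factorization p) with henc
    have hinj : Set.InjOn enc M := by
      intro a _ b _ hab
      simp only [henc, Prod.mk.injEq] at hab
      calc a = p ^ a.factorization p * (a / p ^ a.factorization p) :=
            (Nat.ordProj_mul_ordCompl_eq_self a p).symm
        _ = p ^ b.factorization p * (b / p ^ b.factorization p) := by rw [hab.2, hab.1]
        _ = b := Nat.ordProj_mul_ordCompl_eq_self b p
    have hT' : ∀ m ∈ (M.image enc).image Prod.snd, 0 < m ∧ m.primeFactors ⊆ T := by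
      intro m hm
      simp only [mem_image, henc] at hm
      obtain ⟨x, ⟨n, hn, rfl⟩, rfl⟩ := hm
      obtain ⟨hn0, hsub⟩ := hM n hn
      refine ⟨Nat.ordCompl_pos p hn0.ne', ?_⟩
      intro q hq
      have hq' := Nat.mem_primeFactors.1 hq
      have hqn : q ∈ n.primeFactors :=
        Nat.mem_primeFactors.2 ⟨hq'.1, hq'.2.1.trans (Nat.ordCompl_dvd n p), hn0.ne'⟩
      rcases mem_insert.1 (hsub hqn) with rfl | h
      · exact absurd hq'.2.1 (Nat.not_dvd_ordCompl hpp hn0.ne')
      · exact h
    set r : ℝ := z p / p with hr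
    have hr0 : 0 ≤ r := div_nonneg hz0 hpR.le
    have hr1 : r < 1 := (div_lt_one hpR).2 hz1
    have hw : ∀ m ∈ (M.image enc).image Prod.snd, 0 ≤ wt z m / m := by
      intro m hm
      apply div_nonneg _ (Nat.cast_nonneg m)
      apply wt_nonneg
      intro q hq
      exact (hzT q ((hT' m hm).2 (List.mem_toFinset.2 hq))).1
    calc ∑ n ∈ M, wt z n / n
        = ∑ x ∈ M.image enc, r ^ x.1 * (wt z x.2 / x.2) := by
          rw [sum_image hinj]
          refine sum_congr rfl fun n hn => ?_
          have hn0 := (hM n hn).1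
          simp only [henc, hr]
          have e := Nat.ordProj_mul_ordCompl_eq_self n p
          conv_lhs => rw [← e]
          rw [wt_mul z (pow_ne_zero _ hpp.ne_zero) (Nat.ordCompl_pos p hn0.ne').ne', wt_pow z hpp,
            Nat.cast_mul, Nat.cast_pow, div_pow]
          rw [mul_div_mul_comm]
      _ ≤ ∑ x ∈ (M.image enc).image Prod.fst ×ˢ (M.image enc).image Prod.snd,
            r ^ x.1 * (wt z x.2 / x.2) :=
          sum_le_sum_of_subset_of_nonneg
            (fun x hx => mem_product.2 ⟨mem_image_of_mem _ hx, mem_image_of_mem _ hx⟩)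
            (fun x hx _ => mul_nonneg (pow_nonneg hr0 _) (hw x.2 (mem_product.1 hx).2))
      _ = (∑ a ∈ (M.image enc).image Prod.fst, r ^ a) *
            ∑ m ∈ (M.image enc).image Prod.snd, wt z m / m := by
          rw [sum_product, sum_mul_sum]
      _ ≤ (1 - r)⁻¹ * ∏ q ∈ T, (1 - z q / q)⁻¹ := by
          apply mul_le_mul
          · rw [← tsum_geometric_of_lt_one hr0 hr1]
            exact (summable_geometric_of_lt_one hr0 hr1).sum_le_tsum _
              fun i _ => pow_nonneg hr0 i
          · exact ih hT hzT _ hT'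
          · exact sum_nonneg hw
          · exact inv_nonneg.2 (by linarith)
      _ = _ := by rw [prod_insert hp]

lemma sum_inv_sq_le (S : Finset ℕ) : ∑ n ∈ S, 1 / (n : ℝ) ^ 2 ≤ 2 := by
  refine le_trans ((Real.summable_one_div_nat_pow.2 one_lt_two).sum_le_tsum _
    fun i _ => by positivity) ?_
  rw [hasSum_zeta_two.tsum_eq]
  nlinarith [Real.pi_lt_d2, Real.pi_pos]

/-- Euler product with weights constant on levels. -/
theorem euler_levels (hM : MertensStmt) :
    ∃ C : ℝ, 0 ≤ C ∧ ∀ (u : ℕ) (A : ℝ) (z : ℕ → ℝ), 1 ≤ A → (∀ s, 0 ≤ z s ∧ z s ≤ A) →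
      (∀ s, 1 < z s → A ≤ s) → ∀ M : Finset ℕ, (∀ n ∈ M, 0 < n ∧ Smooth u n) →
      ∑ n ∈ M, wt (fun p => z (kap p)) n / n ≤
        Real.exp ((∑ s ∈ range (u + 1), z s) + C * A ^ 2) := by
  obtain ⟨C, hC⟩ := hM
  have hC0 : 0 ≤ C := by
    have h := hC 0
    simp at h
    linarith [abs_nonneg ((∑ p ∈ cell 0, ((p : ℝ))⁻¹) - 1)]
  refine ⟨2 * C + 4, by positivity, fun u A z hA hz hbig M hM => ?_⟩
  set S : Finset ℕ := (range (u + 1)).biUnion cell with hS
  have hSp : ∀ p ∈ S, p.Prime ∧ z (kap p) / p ≤ 1 / 2 := by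
    intro p hp
    simp only [hS, mem_biUnion] at hp
    obtain ⟨s, -, hp⟩ := hp
    obtain ⟨hpp, hk⟩ := mem_cell.1 hp
    refine ⟨hpp, ?_⟩
    have h2 : (2 : ℝ) ≤ p := by exact_mod_cast hpp.two_le
    rw [div_le_iff₀ (by linarith)]
    rcases le_or_gt (z (kap p)) 1 with h1 | h1
    · linarith
    · have hA' := hbig _ h1
      have hk1 : 1 ≤ kap p := by
        have : (1 : ℝ) ≤ (kap p : ℝ) := hA.trans hA'
        exact_mod_cast this
      have hx := exp_exp_le hk1 le_rfl
      have h3 := Real.add_one_le_exp (Real.exp (kap p : ℝ))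
      have h4 := Real.quadratic_le_exp_of_nonneg (show (0 : ℝ) ≤ kap p from Nat.cast_nonneg _)
      have h5 := Real.quadratic_le_exp_of_nonneg (Real.exp_pos (kap p : ℝ)).le
      nlinarith [(hz (kap p)).2, Real.exp_pos (kap p : ℝ)]
  have hsub : ∀ n ∈ M, 0 < n ∧ n.primeFactors ⊆ S := by
    intro n hn
    refine ⟨(hM n hn).1, fun p hp => ?_⟩
    simp only [hS, mem_biUnion, mem_range]
    exact ⟨kap p, Nat.lt_succ_of_le ((hM n hn).2 p hp),
      mem_cell.2 ⟨(Nat.mem_primeFactors.1 hp).1, rfl⟩⟩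
  refine le_trans (euler_sum _ S (fun p hp => (hSp p hp).1) (fun p hp => ⟨(hz _).1, ?_⟩) M hsub) ?_
  · have h2 : (2 : ℝ) ≤ p := by exact_mod_cast (hSp p hp).1.two_le
    have := (div_le_iff₀ (show (0 : ℝ) < p by linarith)).1 (hSp p hp).2
    linarith
  calc ∏ p ∈ S, (1 - z (kap p) / p)⁻¹
      ≤ ∏ p ∈ S, Real.exp (z (kap p) / p + 2 * A ^ 2 * (1 / (p : ℝ) ^ 2)) := by
        apply prod_le_prod
        · intro p hp; exact inv_nonneg.2 (by linarith [(hSp p hp).2])
        · intro p hp
          set x := z (kap p) / (p : ℝ) with hx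
          have hx0 : 0 ≤ x := div_nonneg (hz _).1 (Nat.cast_nonneg p)
          have hx1 : x ≤ 1 / 2 := (hSp p hp).2
          have hx2 : x ^ 2 ≤ A ^ 2 * (1 / (p : ℝ) ^ 2) := by
            rw [hx, div_pow, mul_one_div]
            gcongr
            · exact (hz _).1
            · exact (hz _).2
          refine le_trans ?_ (Real.exp_le_exp.2
            (show x + 2 * x ^ 2 ≤ x + 2 * A ^ 2 * (1 / (p : ℝ) ^ 2) by linarith))
          refine le_trans ?_ (Real.add_one_le_exp _)
          rw [inv_le_iff_one_le_mul₀ (by linarith)]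
          nlinarith [mul_nonneg (mul_nonneg hx0 hx0) (show (0 : ℝ) ≤ 1 / 2 - x by linarith)]
    _ = Real.exp ((∑ p ∈ S, z (kap p) / p) + 2 * A ^ 2 * ∑ p ∈ S, 1 / (p : ℝ) ^ 2) := by
        rw [← Real.exp_sum, sum_add_distrib, mul_sum]
    _ ≤ _ := by
        apply Real.exp_le_exp.2
        have hd : (↑(range (u + 1)) : Set ℕ).PairwiseDisjoint cell := by
          intro a _ b _ hab
          rw [Function.onFun, disjoint_left]
          intro p hpa hpb
          exact hab ((mem_cell.1 hpa).2.symm.trans (mem_cell.1 hpb).2)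
        have hg : ∑ s ∈ range (u + 1), Real.exp (-(s : ℝ)) ≤ 2 := by
          have he : ∀ s : ℕ, Real.exp (-(s : ℝ)) = Real.exp (-1) ^ s := fun s => by
            rw [← Real.exp_nat_mul]; ring_nf
          have h1 : Real.exp (-1) ≤ 1 / 2 := by
            rw [Real.exp_neg, inv_le_comm₀ (Real.exp_pos 1) (by norm_num)]
            linarith [Real.add_one_le_exp 1]
          simp_rw [he]
          refine le_trans (sum_le_sum fun s _ => pow_le_pow_left₀ (Real.exp_pos _).le h1 s) ?_
          exact sum_geometric_two_le _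
        rw [hS, sum_biUnion hd]
        have key : ∀ s ∈ range (u + 1), ∑ p ∈ cell s, z (kap p) / p ≤
            z s + A * (C * Real.exp (-(s : ℝ))) := by
          intro s _
          rw [show (∑ p ∈ cell s, z (kap p) / (p : ℝ)) = z s * ∑ p ∈ cell s, (1 : ℝ) / p by
            rw [mul_sum]; refine sum_congr rfl fun p hp => ?_
            rw [(mem_cell.1 hp).2, mul_one_div]]
          have h := (abs_le.1 (hC s)).2
          have := mul_le_mul_of_nonneg_left h (hz s).1
          have := mul_le_mul_of_nonneg_right (hz s).2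
            (mul_nonneg hC0 (Real.exp_pos (-(s : ℝ))).le)
          nlinarith
        have h1 := sum_le_sum key
        rw [sum_add_distrib, ← mul_sum, ← mul_sum] at h1
        have h2 := mul_le_mul_of_nonneg_left hg (mul_nonneg (show (0:ℝ) ≤ A by linarith) hC0)
        have h3 := mul_le_mul_of_nonneg_left
          (sum_inv_sq_le ((range (u + 1)).biUnion cell)) (show (0:ℝ) ≤ 2 * A ^ 2 by positivity)
        nlinarith [mul_le_mul_of_nonneg_left (show A ≤ A ^ 2 by nlinarith) hC0]

end Vale.Agent.P031
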