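import Vale.Agent.P031.CrudeParts

/-!
# Crude bound: totient values are sparse

The recursion: either at most two primes lie above level `4u/5`, or one of those is abnormal, or
three normal ones make the value a smooth number carrying a budget larger than `u`.
-/

open Finset Filter
open scoped Classical

namespace Vale.Agent.P031.Crude

/-- Totients of `u`-smooth numbers with at most `j` primes above level `v`. -/
def TotFew (u v j m : ℕ) : Prop :=
  ∃ n, 0 < n ∧ n.totient = m ∧ Smooth u n ∧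
    (n.primeFactors.filter (fun p => v < kap p)).card ≤ j

lemma bd_few {u v : ℕ} {A B : ℝ} (hA : ∑ p ∈ band v u, (1 : ℝ) / p ≤ A)
    (hB : Bd (IsTotUpTo v) B) : ∀ j, Bd (TotFew u v j) ((1 + 4 * A) ^ j * B) := by
  intro j
  induction j with
  | zero =>
    refine hB.mono ?_ (by simp)
    rintro m ⟨n, hn, rfl, -, hc⟩
    refine ⟨n, hn, rfl, fun p hp => ?_⟩
    by_contra h
    push Not at h
    have h' : p ∈ n.primeFactors.filter (fun p => v < kap p) := mem_filter.2 ⟨hp, h⟩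
    have := card_pos.2 ⟨p, h'⟩
    omega
  | succ j ih =>
    have hA0 : 0 ≤ A := (sum_nonneg fun p _ => by positivity).trans hA
    refine ((ih.or (peel ih (band v u) (fun p hp => (mem_band.1 hp).1)
      (Q' := fun m => ∃ p ∈ band v u, ∃ b m', TotFew u v j m' ∧
        m = (p ^ (b + 1)).totient * m') fun m hm => hm)
      (Q := TotFew u v (j + 1)) ?_).mono (fun m hm => hm) ?_)
    · rintro m ⟨n, hn, rfl, hu, hc⟩
      by_cases hj : (n.primeFactors.filter (fun p => v < kap p)).card ≤ j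
      · exact Or.inl ⟨n, hn, rfl, hu, hj⟩
      obtain ⟨p, hp⟩ := card_pos.1 (show 0 < (n.primeFactors.filter
        (fun p => v < kap p)).card by omega)
      obtain ⟨hp1, hp2⟩ := mem_filter.1 hp
      obtain ⟨b, n', hn', he, hsub⟩ := split hn hp1
      refine Or.inr ⟨p, mem_band.2 ⟨(Nat.mem_primeFactors.1 hp1).1, hp2, hu p hp1⟩, b, n'.totient,
        ⟨n', hn', rfl, fun q hq => hu q (mem_of_mem_erase (hsub hq)), ?_⟩, he⟩
      have h1 : n'.primeFactors.filter (fun q => v < kap q) ⊆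
          (n.primeFactors.filter (fun q => v < kap q)).erase p := by
        intro q hq
        obtain ⟨hq1, hq2⟩ := mem_filter.1 hq
        obtain ⟨hne, hq'⟩ := mem_erase.1 (hsub hq1)
        exact mem_erase.2 ⟨hne, mem_filter.2 ⟨hq', hq2⟩⟩
      have h2 := card_le_card h1
      rw [card_erase_of_mem hp] at h2
      omega
    · have hP : 0 ≤ (1 + 4 * A) ^ j * B := ih.nonneg
      calc (1 + 4 * A) ^ j * B + 4 * (∑ p ∈ band v u, (1 : ℝ) / p) * ((1 + 4 * A) ^ j * B)
          ≤ (1 + 4 * A) ^ j * B + 4 * A * ((1 + 4 * A) ^ j * B) := by gcongr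
        _ = (1 + 4 * A) ^ (j + 1) * B := by ring

/-- Smooth numbers carrying three normal primes above level `v`. -/
def HeavyAt (v k m : ℕ) : Prop :=
  0 < m ∧ Smooth k m ∧
    ∃ S : Finset ℕ, (∀ q ∈ S, Normal q ∧ v < kap q) ∧ S.card = 3 ∧ topS S = k ∧ shiftProd S ∣ m

lemma eventually_small {K : ℝ} (c : ℝ) (hc : 0 < c) :
    ∀ᶠ u : ℕ in atTop, K * (u : ℝ) ^ ((4 : ℝ) / 5) ≤ c * u := by
  have ht := (tendsto_rpow_atTop (show (0 : ℝ) < 1 / 5 by norm_num)).comp
    tendsto_natCast_atTop_atTop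
  filter_upwards [ht.eventually_ge_atTop (K / c), eventually_gt_atTop 0] with u hu hu0
  have hu' : (0 : ℝ) < u := by exact_mod_cast hu0
  simp only [Function.comp] at hu
  rw [div_le_iff₀ hc] at hu
  calc K * (u : ℝ) ^ ((4 : ℝ) / 5) ≤ (u : ℝ) ^ ((1 : ℝ) / 5) * c * (u : ℝ) ^ ((4 : ℝ) / 5) :=
        mul_le_mul_of_nonneg_right hu (by positivity)
    _ = c * ((u : ℝ) ^ ((1 : ℝ) / 5) * (u : ℝ) ^ ((4 : ℝ) / 5)) := by ring
    _ = c * u := by rw [← Real.rpow_add hu']; norm_num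

/-- The heavy case contributes at most one. -/
lemma heavy_small (hX : ExceedSumStmt) :
    ∀ᶠ u : ℕ in atTop, ∀ v : ℕ, (4 : ℝ) * u / 5 - 1 ≤ v →
      Bd (fun m => ∃ k ∈ Ioc v u, HeavyAt v k m) 1 := by
  obtain ⟨C, hC⟩ := hX
  set T : ℕ := max ⌈C⌉₊ 3 with hT
  have hTC : C ≤ T := (Nat.le_ceil C).trans (by exact_mod_cast le_max_left _ _)
  set K : ℝ := |C| * 64 + 2 + |1.28 * ((T : ℝ) + 1) + |C| * 64 * ((T : ℝ) + 1)|
  filter_upwards [eventually_small (K := K) 0.02 (by norm_num), eventually_gt_atTop (2 * T + 4)]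
    with u hu hu0 v hv
  intro M hM
  have hu1 : (1 : ℝ) ≤ u := by exact_mod_cast (show 1 ≤ u by omega)
  have hTv : T ≤ v := by
    have h : ((2 * T + 4 : ℕ) : ℝ) < u := by exact_mod_cast hu0
    push_cast at h
    exact_mod_cast (show (T : ℝ) ≤ v by linarith)
  choose! kf hkf hH using hM
  rw [← sum_fiberwise_of_maps_to (g := kf) (t := Ioc v u) (fun m hm => hkf m hm)]
  set w : ℝ := (u : ℝ) ^ ((4 : ℝ) / 5) with hw
  have hw1 : 1 ≤ w := Real.one_le_rpow hu1 (by norm_num)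
  set E : ℝ := (u : ℝ) - ((v : ℝ) - T) * 1.28 + |C| * 64 * ((T : ℝ) + w + 1) with hE
  calc ∑ k ∈ Ioc v u, ∑ m ∈ M.filter (fun m => kf m = k), (1 : ℝ) / m
      ≤ ∑ _k ∈ Ioc v u, Real.exp E := by
        refine sum_le_sum fun k hk => ?_
        obtain ⟨hvk, hku⟩ := mem_Ioc.1 hk
        refine (hC T 3 k hTC (le_max_right _ _) (hTv.trans_lt hvk)
          (((v : ℝ) - T) * 1.28) _ ?_).trans (Real.exp_le_exp.2 ?_)
        · intro m hm
          obtain ⟨hmM, rfl⟩ := mem_filter.1 hm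
          obtain ⟨hm0, hsm, S, hS, hc, htop, hdvd⟩ := hH m hmM
          exact ⟨hm0, hsm, S, fun q hq => (hS q hq).1, hc.le, htop, hdvd,
            budS_lower (card_pos.1 (by omega)) (fun q hq => (hS q hq).2) hc⟩
        · have hk' : (k : ℝ) ≤ u := by exact_mod_cast hku
          have hp : profErr T 3 k ≤ 64 * ((T : ℝ) + w + 1) := by
            unfold profErr
            have : (k : ℝ) ^ ((4 : ℝ) / 5) ≤ w :=
              Real.rpow_le_rpow (Nat.cast_nonneg k) hk' (by norm_num)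
            norm_num
            linarith
          have hp0 : 0 ≤ profErr T 3 k := by unfold profErr; positivity
          have := mul_le_mul (le_abs_self C) hp hp0 (abs_nonneg C)
          rw [hE]
          linarith
    _ = ((u - v : ℕ) : ℝ) * Real.exp E := by simp
    _ ≤ Real.exp (2 * w + E) := by
        rw [Real.exp_add (2 * w) E]
        refine mul_le_mul_of_nonneg_right ?_ (Real.exp_pos _).le
        have h1 : ((u - v : ℕ) : ℝ) ≤ u := by exact_mod_cast Nat.sub_le u v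
        refine h1.trans ?_
        rw [← Real.exp_log (show (0 : ℝ) < u by linarith)]
        refine Real.exp_le_exp.2 ?_
        have := Real.log_le_rpow_div (show (0 : ℝ) ≤ u by linarith)
          (show (0 : ℝ) < 4 / 5 by norm_num)
        rw [← hw] at this
        linarith
    _ ≤ 1 := by
        apply Real.exp_le_one_iff.2
        have h1 := le_abs_self (1.28 * ((T : ℝ) + 1) + |C| * 64 * ((T : ℝ) + 1))
        have h2 : 1.28 * ((T : ℝ) + 1) + |C| * 64 * ((T : ℝ) + 1) ≤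
            |1.28 * ((T : ℝ) + 1) + |C| * 64 * ((T : ℝ) + 1)| * w :=
          h1.trans (le_mul_of_one_le_right (abs_nonneg _) hw1)
        simp only [K] at hu
        rw [hE]
        linarith

/-- Abnormal primes in the top band are negligible. -/
lemma abnormal_small (hA : AbnormalSumStmt) :
    ∀ᶠ u : ℕ in atTop, ∀ v : ℕ, (u : ℝ) / 2 ≤ v →
      4 * ∑ p ∈ (band v u).filter (fun p => ¬ Normal p), (1 : ℝ) / p ≤ 1 / 2 := by
  obtain ⟨c, C, hc, hC⟩ := hA
  have ht := tendsto_natCast_atTop_atTop (R := ℝ)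
  filter_upwards [ht.eventually_ge_atTop (8 * |C| * 1024 / c ^ 4), eventually_gt_atTop 0]
    with u hu hu0 v hv
  have hu' : (0 : ℝ) < u := by exact_mod_cast hu0
  set y : ℝ := c * (v : ℝ) ^ ((1 : ℝ) / 2) with hy
  have hy0 : 0 ≤ y := by positivity
  have hb : ∑ p ∈ (band v u).filter (fun p => ¬ Normal p), (1 : ℝ) / p ≤
      (u : ℝ) * (|C| * Real.exp (-y)) := by
    rw [sum_filter]
    refine (sum_band_le v u _ fun p => by split_ifs <;> positivity).trans ?_
    calc ∑ s ∈ Ioc v u, ∑ p ∈ cell s, (if ¬ Normal p then (1 : ℝ) / p else 0)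
        ≤ ∑ _s ∈ Ioc v u, |C| * Real.exp (-y) := by
          refine sum_le_sum fun s hs => ?_
          rw [← sum_filter]
          refine (hC s).trans ?_
          refine mul_le_mul (le_abs_self C) (Real.exp_le_exp.2 ?_) (Real.exp_pos _).le
            (abs_nonneg C)
          have : (v : ℝ) ^ ((1 : ℝ) / 2) ≤ (s : ℝ) ^ ((1 : ℝ) / 2) :=
            Real.rpow_le_rpow (Nat.cast_nonneg v) (by exact_mod_cast (mem_Ioc.1 hs).1.le)
              (by norm_num)
          rw [hy, neg_mul]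
          exact neg_le_neg (mul_le_mul_of_nonneg_left this hc.le)
      _ = ((u - v : ℕ) : ℝ) * (|C| * Real.exp (-y)) := by simp
      _ ≤ _ := mul_le_mul_of_nonneg_right (by exact_mod_cast Nat.sub_le u v) (by positivity)
  have h4 : (y / 4) ^ 4 ≤ Real.exp y := by
    have h : y / 4 ≤ Real.exp (y / 4) := by linarith [Real.add_one_le_exp (y / 4)]
    refine (pow_le_pow_left₀ (by positivity) h 4).trans ?_
    rw [← Real.exp_nat_mul]
    exact Real.exp_le_exp.2 (le_of_eq (by push_cast; ring))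
  have hsq : ((v : ℝ) ^ ((1 : ℝ) / 2)) ^ 4 = (v : ℝ) ^ 2 := by
    rw [← Real.rpow_natCast ((v : ℝ) ^ ((1 : ℝ) / 2)) 4, ← Real.rpow_mul (Nat.cast_nonneg v),
      ← Real.rpow_natCast (v : ℝ) 2]
    norm_num
  have h5 : c ^ 4 * ((u : ℝ) / 2) ^ 2 / 256 ≤ Real.exp y := by
    refine le_trans ?_ h4
    have h' : (y / 4) ^ 4 = c ^ 4 * (v : ℝ) ^ 2 / 256 := by
      rw [hy, div_pow (c * _), mul_pow, hsq]
      norm_num
    rw [h']
    gcongr
  have h6 : 8 * |C| * (u : ℝ) ≤ Real.exp y := by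
    refine le_trans ?_ h5
    rw [div_le_iff₀ (by positivity)] at hu
    nlinarith
  have h7 : 8 * |C| * (u : ℝ) * Real.exp (-y) ≤ 1 := by
    have := mul_le_mul_of_nonneg_right h6 (Real.exp_pos (-y)).le
    rwa [← Real.exp_add, add_neg_cancel, Real.exp_zero] at this
  linarith

/-- One step of the recursion. -/
lemma recursion (hM : MertensStmt) (hX : ExceedSumStmt) (hA : AbnormalSumStmt) :
    ∃ (C₁ : ℝ) (u₀ : ℕ), 1 ≤ C₁ ∧ ∀ u ≥ u₀, ∃ v : ℕ, v < u ∧ (v : ℝ) + 2 ≤ 0.85 * ((u : ℝ) + 2) ∧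
      ∀ B : ℝ, 1 ≤ B → Bd (IsTotUpTo v) B → Bd (IsTotUpTo u) (C₁ * ((u : ℝ) + 2) ^ 2 * B) := by
  obtain ⟨Cm, hCm⟩ := hM
  obtain ⟨u₁, hu₁⟩ := eventually_atTop.1 ((heavy_small hX).and (abnormal_small hA))
  refine ⟨2 * (4 * (1 + |Cm|) + 1) ^ 2 + 2, max u₁ 20, by nlinarith [abs_nonneg Cm],
    fun u hu => ?_⟩
  set v : ℕ := 4 * u / 5 with hv
  have hu20 : 20 ≤ u := le_of_max_le_right hu
  have hvu : v < u := by omega
  have hv1 : (4 : ℝ) * u / 5 - 1 ≤ v := by
    have : (4 * u : ℕ) ≤ 5 * v + 4 := by omega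
    have : (4 : ℝ) * u ≤ 5 * v + 4 := by exact_mod_cast this
    linarith
  have hv2 : (u : ℝ) / 2 ≤ v := by
    have : u ≤ 2 * v := by omega
    have : (u : ℝ) ≤ 2 * v := by exact_mod_cast this
    linarith
  refine ⟨v, hvu, ?_, fun B hB hBv => ?_⟩
  · have : 5 * v ≤ 4 * u := by omega
    have : (5 : ℝ) * v ≤ 4 * u := by exact_mod_cast this
    have : (20 : ℝ) ≤ u := by exact_mod_cast hu20
    linarith
  obtain ⟨hheavy, habn⟩ := hu₁ u (le_of_max_le_left hu)
  specialize hheavy v hv1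
  specialize habn v hv2
  obtain ⟨G₀, hG₀⟩ := exists_bd u
  set g : ℝ := sInf {G : ℝ | Bd (IsTotUpTo u) G}
  have hgbd : Bd (IsTotUpTo u) g := fun M hM' => le_csInf ⟨G₀, hG₀⟩ fun G hG => hG M hM'
  set A : ℝ := (u : ℝ) * (1 + |Cm|)
  set W : ℝ := (1 + 4 * A) ^ 2 * B + 1
  have h2 := bd_few (band_mass hCm v u) hBv 2
  have h3 := peel hgbd ((band v u).filter fun p => ¬ Normal p)
    (fun p hp => (mem_band.1 (mem_filter.1 hp).1).1)
    (Q' := fun m => ∃ p ∈ (band v u).filter (fun p => ¬ Normal p), ∃ b m', IsTotUpTo u m' ∧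
      m = (p ^ (b + 1)).totient * m') fun m hm => hm
  have key : Bd (IsTotUpTo u) (W + 1 / 2 * g) := by
    have hcombo := (h2.or hheavy
      (Q := fun m => TotFew u v 2 m ∨ ∃ k ∈ Ioc v u, HeavyAt v k m) fun m hm => hm).or h3
      (Q := IsTotUpTo u) ?_
    · refine hcombo.mono (fun m hm => hm) ?_
      have := mul_le_mul_of_nonneg_right habn hgbd.nonneg
      simp only [W]
      linarith
    rintro m ⟨n, hn, rfl, hs⟩
    by_cases hc : (n.primeFactors.filter (fun p => v < kap p)).card ≤ 2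
    · exact Or.inl (Or.inl ⟨n, hn, rfl, hs, hc⟩)
    by_cases hab : ∃ p ∈ n.primeFactors, v < kap p ∧ ¬ Normal p
    · obtain ⟨p, hp, hpv, hpn⟩ := hab
      obtain ⟨b, n', hn', he, hsub⟩ := split hn hp
      exact Or.inr ⟨p, mem_filter.2 ⟨mem_band.2 ⟨(Nat.mem_primeFactors.1 hp).1, hpv, hs p hp⟩,
        hpn⟩, b, n'.totient, ⟨n', hn', rfl, fun q hq => hs q (mem_of_mem_erase (hsub hq))⟩, he⟩
    push Not at hab hc
    set Bg := n.primeFactors.filter (fun p => v < kap p) with hBg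
    obtain ⟨q₀, hq₀, hmax⟩ := exists_max_image Bg kap (card_pos.1 (by omega))
    obtain ⟨S₂, hS₂, hc₂⟩ := exists_subset_card_eq (s := Bg.erase q₀) (n := 2)
      (by rw [card_erase_of_mem hq₀]; omega)
    have hSB : insert q₀ S₂ ⊆ Bg :=
      insert_subset hq₀ (hS₂.trans (erase_subset _ _))
    have hq₀' := mem_filter.1 hq₀
    have htop : topS (insert q₀ S₂) = kap q₀ := by
      refine le_antisymm (Finset.sup_le fun q hq => hmax q (hSB hq)) ?_
      exact Finset.le_sup (f := kap) (mem_insert_self q₀ S₂)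
    have hsm : Smooth (kap q₀) n := by
      intro p hp
      by_cases h : v < kap p
      · exact hmax p (mem_filter.2 ⟨hp, h⟩)
      · exact (not_lt.1 h).trans hq₀'.2.le
    refine Or.inl (Or.inr ⟨kap q₀, mem_Ioc.2 ⟨hq₀'.2, hs _ hq₀'.1⟩, Nat.totient_pos.2 hn,
      totient_smooth hn hsm, insert q₀ S₂, fun q hq => ?_, ?_, htop,
      shiftProd_dvd hn (hSB.trans (filter_subset _ _))⟩)
    · obtain ⟨h1, h2⟩ := mem_filter.1 (hSB hq)
      exact ⟨hab q h1 h2, h2⟩
    · rw [card_insert_of_notMem (fun h => notMem_erase q₀ Bg (hS₂ h)), hc₂]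
  have hg : g ≤ W + 1 / 2 * g := by
    apply csInf_le _ key
    exact ⟨0, fun G hG => Bd.nonneg hG⟩
  refine hgbd.mono (fun m hm => hm) ?_
  have hU : (1 : ℝ) ≤ ((u : ℝ) + 2) := by linarith [show (0 : ℝ) ≤ u from Nat.cast_nonneg u]
  have hA' : 1 + 4 * A ≤ (4 * (1 + |Cm|) + 1) * ((u : ℝ) + 2) := by
    simp only [A]
    nlinarith [abs_nonneg Cm]
  have hA'' : (1 + 4 * A) ^ 2 * B ≤ (4 * (1 + |Cm|) + 1) ^ 2 * ((u : ℝ) + 2) ^ 2 * B := by
    rw [← mul_pow]
    gcongr
  have h9 : (1 : ℝ) ≤ ((u : ℝ) + 2) ^ 2 * B := one_le_mul_of_one_le_of_one_le (one_le_pow₀ hU) hB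
  have hW : g ≤ 2 * W := by linarith
  simp only [W] at hW
  linarith

end Vale.Agent.P031.Crude

namespace Vale.Agent.P031

open Crude

/-- Totient values are sparse: `CrudeStmt`. -/
theorem crude (hM : MertensStmt) (hX : ExceedSumStmt) (hA : AbnormalSumStmt) : CrudeStmt := by
  obtain ⟨C₁, u₀, hC₁, hrec⟩ := recursion hM hX hA
  choose B₀ hB₀ using exists_bd
  set R : ℝ := ∑ u ∈ range u₀, B₀ u with hR
  have hR0 : 0 ≤ R := sum_nonneg fun u _ => (hB₀ u).nonneg
  set l2 : ℝ := Real.log 2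
  have hl2 : (0.69 : ℝ) ≤ l2 := by linarith [Real.log_two_gt_d9]
  set D : ℝ := max (R / l2 ^ 2) ((2 + Real.log C₁ / l2) / 0.15) with hD
  have hD0 : 0 ≤ D := le_max_of_le_left (by positivity)
  refine ⟨D, fun u => ?_⟩
  induction u using Nat.strong_induction_on with
  | _ u ih =>
    intro M hM'
    set L : ℝ := Real.log ((u : ℝ) + 2) with hL
    have hLl : l2 ≤ L := Real.log_le_log two_pos (by linarith [show (0:ℝ) ≤ u from Nat.cast_nonneg u])
    rcases lt_or_ge u u₀ with hu | hu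
    · refine (hB₀ u M hM').trans ?_
      have h1 : B₀ u ≤ R :=
        single_le_sum (fun i _ => (hB₀ i).nonneg) (mem_range.2 hu)
      have h2 : R ≤ D * L ^ 2 := by
        have h := le_max_left (R / l2 ^ 2) ((2 + Real.log C₁ / l2) / 0.15)
        rw [← hD, div_le_iff₀ (by positivity)] at h
        exact h.trans (mul_le_mul_of_nonneg_left (pow_le_pow_left₀ (by linarith) hLl 2) hD0)
      linarith [Real.add_one_le_exp (D * L ^ 2)]
    obtain ⟨v, hvu, hv, hstep⟩ := hrec u hu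
    set L' : ℝ := Real.log ((v : ℝ) + 2) with hL'
    have hb : Bd (IsTotUpTo v) (Real.exp (D * L' ^ 2)) := fun N hN => ih v hvu N hN
    refine (hstep _ (Real.one_le_exp (by positivity)) hb M hM').trans ?_
    have hu2 : (0 : ℝ) < (u : ℝ) + 2 := by positivity
    have hL'0 : 0 ≤ L' := Real.log_nonneg (by linarith [show (0:ℝ) ≤ v from Nat.cast_nonneg v])
    have hLL : L' ≤ L - 0.15 := by
      have h : L' ≤ Real.log (0.85 * ((u : ℝ) + 2)) := Real.log_le_log (by positivity) hv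
      rw [Real.log_mul (by norm_num) hu2.ne', ← hL] at h
      have := Real.log_le_sub_one_of_pos (show (0 : ℝ) < 0.85 by norm_num)
      linarith
    have hD2 : (2 + Real.log C₁ / l2) ≤ D * 0.15 := by
      have h := le_max_right (R / l2 ^ 2) ((2 + Real.log C₁ / l2) / 0.15)
      rw [← hD, div_le_iff₀ (by norm_num)] at h
      exact h
    have hlogC : Real.log C₁ ≤ Real.log C₁ / l2 * L := by
      rw [div_mul_eq_mul_div, le_div_iff₀ (by linarith)]
      exact mul_le_mul_of_nonneg_left hLl (Real.log_nonneg hC₁)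
    have hsq : L' ^ 2 + 0.15 * L ≤ L ^ 2 := by nlinarith
    rw [← Real.exp_log (show (0 : ℝ) < C₁ * ((u : ℝ) + 2) ^ 2 by positivity), ← Real.exp_add]
    refine Real.exp_le_exp.2 ?_
    rw [Real.log_mul (by linarith) (by positivity), Real.log_pow, ← hL]
    push_cast
    nlinarith [mul_le_mul_of_nonneg_left hsq hD0, mul_le_mul_of_nonneg_right hD2 (show 0 ≤ L by linarith)]

end Vale.Agent.P031
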