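import Vale.Agent.P031.Interfaces

/-!
# Distinct values of Euler's totient: the boundary layer is small

Coordinate `j` of a tail is compressed by `x ↦ x - ⌊(x + u j) / (M / j)⌋`. The factor decreases
with `j`, which opens margins in all budget inequalities, and the shifts `u j` are chosen so that
at most half of the tails lose injectivity. The head is then free in an interval of length
proportional to `ε L`, while in the layer it runs over a window of width `w`.
-/

open Finset Filter Topology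

namespace Vale.Agent.P031.Layer

/-- Increments of the cost. -/
noncomputable def inc (k : ℕ) : ℝ := Qf (k + 1) - Qf k

/-- Weighted sum of a list of levels. -/
noncomputable def bs : ℕ → List ℕ → ℝ
  | _, [] => 0
  | k, x :: l => inc k * x + bs (k + 1) l

theorem sum_Qf_count : ∀ (l : List ℕ) (x k : ℕ), (x :: l).Pairwise (· ≥ ·) →
    ∑ s ∈ Ioc 0 x, Qf (k + l.countP (fun y => s ≤ y)) = x * Qf k + bs k l := by
  intro l
  induction l with
  | nil => intro x k _; simp [bs]
  | cons y l ih =>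
    intro x k h
    obtain ⟨h1, h2⟩ := List.pairwise_cons.1 h
    have hy : y ≤ x := h1 y (List.mem_cons_self ..)
    have hle : ∀ z ∈ y :: l, z ≤ y := by
      intro z hz
      rcases List.mem_cons.1 hz with rfl | hz
      · exact le_rfl
      · exact (List.pairwise_cons.1 h2).1 z hz
    rw [← Finset.sum_Ioc_consecutive _ (Nat.zero_le y) hy]
    have e1 : ∑ s ∈ Ioc 0 y, Qf (k + (y :: l).countP (fun z => s ≤ z))
        = ∑ s ∈ Ioc 0 y, Qf (k + 1 + l.countP (fun z => s ≤ z)) := by
      refine Finset.sum_congr rfl fun s hs => ?_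
      rw [List.countP_cons_of_pos (by simpa using (Finset.mem_Ioc.1 hs).2)]
      congr 1
      omega
    have e2 : ∑ s ∈ Ioc y x, Qf (k + (y :: l).countP (fun z => s ≤ z)) = ((x : ℝ) - y) * Qf k := by
      rw [Finset.sum_congr rfl (fun s hs => show Qf (k + (y :: l).countP (fun z => s ≤ z)) = Qf k by
        rw [List.countP_eq_zero.2 (fun z hz => by
          have := (Finset.mem_Ioc.1 hs).1
          have := hle z hz
          simp; omega), Nat.add_zero]),
        Finset.sum_const, Nat.card_Ioc, nsmul_eq_mul, Nat.cast_sub hy]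
    rw [e1, e2, ih y (k + 1) h2, bs, inc]
    ring

theorem budL_cons {x : ℕ} {l : List ℕ} (h : (x :: l).Pairwise (· ≥ ·)) :
    budL (x :: l) = bs 1 l := by
  have h1 : Qf 1 = 0 := by simp [Qf]
  have e := sum_Qf_count l x 1 h
  rw [h1, mul_zero, zero_add] at e
  rw [← e, budL]
  refine Finset.sum_congr rfl fun s hs => ?_
  rw [List.countP_cons_of_pos (by simpa using (Finset.mem_Ioc.1 hs).2), Nat.add_comm]

theorem inc_mem {k : ℕ} (hk : 1 ≤ k) : 0 ≤ inc k ∧ inc k ≤ k := by
  have h0 : (1 : ℝ) ≤ k := by exact_mod_cast hk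
  have hq : (0 : ℝ) < ((k : ℝ) + 1) / k := by positivity
  have h1 := Real.one_sub_inv_le_log_of_pos hq
  have h2 := Real.log_le_sub_one_of_pos hq
  have h3 := Real.log_le_sub_one_of_pos (show (0 : ℝ) < (k : ℝ) + 1 by linarith)
  have h4 : Real.log 2 ≤ Real.log ((k : ℝ) + 1) := Real.log_le_log two_pos (by linarith)
  have h5 := Real.log_two_gt_d9
  rw [Real.log_div (by linarith) (by linarith)] at h1 h2
  have e : inc k = Real.log ((k : ℝ) + 1)
      + k * (Real.log ((k : ℝ) + 1) - Real.log k) - 1 := by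
    simp only [inc, Qf]; push_cast; ring
  rw [e]
  constructor
  · have : (1 : ℝ) / 2 ≤ k * (Real.log ((k : ℝ) + 1) - Real.log k) := by
      refine le_trans ?_ (mul_le_mul_of_nonneg_left h1 (by linarith))
      rw [inv_div, one_sub_div (by linarith), mul_div_assoc', le_div_iff₀ (by linarith)]
      linarith
    norm_num at h5 this ⊢
    linarith
  · have : (k : ℝ) * (Real.log ((k : ℝ) + 1) - Real.log k) ≤ 1 := by
      refine (mul_le_mul_of_nonneg_left h2 (by linarith)).trans_eq ?_
      field_simp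
      ring
    linarith

/-- Compression of one coordinate. -/
def g (D u x : ℕ) : ℕ := x - (x + u) / D

/-- Compression factor of coordinate `j`. -/
noncomputable def cf (M j : ℕ) : ℝ := 1 - 1 / ((M / j : ℕ) : ℝ)

/-- Compression of a list whose first coordinate is `j`. -/
def mp (M : ℕ) (u : ℕ → ℕ) : ℕ → List ℕ → List ℕ
  | _, [] => []
  | j, x :: l => g (M / j) (u j) x :: mp M u (j + 1) l

/-- No coordinate is in a doubled fibre. -/
def okL (M : ℕ) (u : ℕ → ℕ) : ℕ → List ℕ → Prop
  | _, [] => True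
  | j, x :: l => ¬ (M / j) ∣ x + u j ∧ okL M u (j + 1) l

theorem length_mp (M : ℕ) (u : ℕ → ℕ) (l : List ℕ) (j : ℕ) : (mp M u j l).length = l.length := by
  induction l generalizing j with
  | nil => rfl
  | cons x l ih => simp [mp, ih]

theorem g_lt {D u x x' : ℕ} (hD : 2 ≤ D) (hx : x < x') (hu : u < D) (hb : ¬ D ∣ x' + u) :
    g D u x < g D u x' := by
  have h1 := Nat.div_add_mod (x + u) D
  have h2 := Nat.div_add_mod (x' + u) D
  have h3 : (x' + u) % D ≠ 0 := fun h => hb (Nat.dvd_of_mod_eq_zero h)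
  have h4 := Nat.mod_lt (x + u) (show 0 < D by omega)
  have hq : (x' + u) / D ≤ x' := by
    rw [Nat.div_le_iff_le_mul (by omega)]
    have : x' ≤ x' * D := Nat.le_mul_of_pos_right _ (by omega)
    omega
  have hq0 : (x + u) / D ≤ x := by
    rw [Nat.div_le_iff_le_mul (by omega)]
    have : x ≤ x * D := Nat.le_mul_of_pos_right _ (by omega)
    omega
  simp only [g]
  generalize (x + u) % D = r at *
  generalize (x' + u) % D = r' at *
  generalize (x + u) / D = q at *
  generalize (x' + u) / D = q' at *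
  rcases le_or_gt q' q with h | h
  · omega
  · obtain ⟨k, hk⟩ : ∃ k, q' = q + 1 + k := ⟨q' - q - 1, by omega⟩
    have e : D * q' = D * q + D + D * k := by rw [hk]; ring
    have : k ≤ D * k := Nat.le_mul_of_pos_left _ (by omega)
    omega

theorem g_bounds {D u x : ℕ} (hD : 0 < D) (hu : u < D) :
    (1 - 1 / (D : ℝ)) * x - 1 ≤ g D u x ∧ (g D u x : ℝ) ≤ (1 - 1 / (D : ℝ)) * x + 1 := by
  have hq : (x + u) / D ≤ x := by
    rw [Nat.div_le_iff_le_mul hD]
    have : x ≤ x * D := Nat.le_mul_of_pos_right _ hD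
    omega
  have h1 := Nat.div_add_mod (x + u) D
  have h2 := Nat.mod_lt (x + u) hD
  have h1' : (D : ℝ) * (((x + u) / D : ℕ) : ℝ) + (((x + u) % D : ℕ) : ℝ) = (x : ℝ) + u := by
    exact_mod_cast h1
  have h2' : (((x + u) % D : ℕ) : ℝ) ≤ D := by exact_mod_cast h2.le
  have hu' : (u : ℝ) ≤ D := by exact_mod_cast hu.le
  have hD' : (0 : ℝ) < D := by exact_mod_cast hD
  rw [g, Nat.cast_sub hq]
  set q := (((x + u) / D : ℕ) : ℝ)
  set m := (((x + u) % D : ℕ) : ℝ)
  have hm : 0 ≤ m := Nat.cast_nonneg _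
  have hun : (0 : ℝ) ≤ u := Nat.cast_nonneg _
  have e : (1 - 1 / (D : ℝ)) * x = x - x / D := by ring
  rw [e]
  constructor
  · have : q ≤ x / D + 1 := by rw [div_add_one hD'.ne', le_div_iff₀ hD']; linarith
    linarith
  · have : x / D - 1 ≤ q := by rw [div_sub_one hD'.ne', div_le_iff₀ hD']; linarith
    linarith

/-- Numerical hypotheses on the parameters. -/
structure Par (M K : ℕ) (h ε : ℝ) : Prop where
  eps_pos : 0 < ε
  eps_le : 4 * ε * M ≤ 1
  big : 8 * (K + 1) ^ 2 ≤ M
  small : 4 * ε ≤ 1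
  level : 8 * ((K : ℝ) + 1) ^ 2 + 8 ≤ ε * h
  power : ∀ x : ℝ, h ≤ x → x ^ ((19 : ℝ) / 20) ≤ ε * x / 2

variable {M K : ℕ} {h ε : ℝ} {u : ℕ → ℕ}

theorem two_le_div (P : Par M K h ε) {j : ℕ} (hj : 1 ≤ j) (hjK : j ≤ K + 1) : 2 ≤ M / j := by
  rw [Nat.le_div_iff_mul_le (by omega)]
  nlinarith [P.big]

theorem four_le_div (P : Par M K h ε) {j : ℕ} (hj : 1 ≤ j) (hjK : j ≤ K + 1) : 4 ≤ M / j := by
  rw [Nat.le_div_iff_mul_le (by omega)]
  nlinarith [P.big]

theorem cf_gap (P : Par M K h ε) {j : ℕ} (hj : 1 ≤ j) (hjK : j ≤ K) :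
    cf M (j + 1) ≤ cf M j - 3 * ε := by
  have hD := two_le_div P hj (by omega)
  have hD' := two_le_div P (show 1 ≤ j + 1 by omega) (by omega)
  have hb := P.big
  have h1 := Nat.div_add_mod M j
  have h2 := Nat.mod_lt M (show 0 < j by omega)
  have h3 : M / (j + 1) * (j + 1) ≤ M := Nat.div_mul_le_self ..
  have h1' : (M : ℝ) ≤ j * ((M / j : ℕ) : ℝ) + j := by
    exact_mod_cast (show M ≤ j * (M / j) + j by omega)
  have h3' : ((M / (j + 1) : ℕ) : ℝ) * ((j : ℝ) + 1) ≤ M := by exact_mod_cast h3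
  have hb' : 8 * ((K : ℝ) + 1) ^ 2 ≤ M := by exact_mod_cast hb
  have hj' : (1 : ℝ) ≤ j := by exact_mod_cast hj
  have hjK' : (j : ℝ) ≤ K := by exact_mod_cast hjK
  have hDp : (2 : ℝ) ≤ ((M / j : ℕ) : ℝ) := by exact_mod_cast hD
  have hDp' : (2 : ℝ) ≤ ((M / (j + 1) : ℕ) : ℝ) := by exact_mod_cast hD'
  simp only [cf]
  set D := ((M / j : ℕ) : ℝ)
  set D' := ((M / (j + 1) : ℕ) : ℝ)
  have hM : (0 : ℝ) < M := lt_of_lt_of_le (by positivity) hb'
  have hjM : (j : ℝ) < M := by nlinarith
  have a1 : 1 / D ≤ (j : ℝ) / ((M : ℝ) - j) := by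
    rw [div_le_div_iff₀ (by linarith) (by linarith)]; linarith
  have a2 : ((j : ℝ) + 1) / M ≤ 1 / D' := by
    rw [div_le_div_iff₀ hM (by linarith)]; linarith
  have a3 : (j : ℝ) / ((M : ℝ) - j) + 3 / (4 * (M : ℝ)) ≤ ((j : ℝ) + 1) / M := by
    rw [div_add_div _ _ (by linarith) (by positivity), div_le_div_iff₀ (by nlinarith) hM]
    have : 4 * (j : ℝ) ^ 2 + j ≤ M := by nlinarith
    nlinarith [mul_le_mul_of_nonneg_left this hM.le]
  have a4 : 3 * ε ≤ 3 / (4 * (M : ℝ)) := by
    rw [le_div_iff₀ (by positivity)]; nlinarith [P.eps_le]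
  linarith

theorem cf_mem (P : Par M K h ε) {j : ℕ} (hj : 1 ≤ j) (hjK : j ≤ K + 1) :
    3 / 4 ≤ cf M j ∧ cf M j ≤ 1 - 4 * ε := by
  have hD : (4 : ℝ) ≤ ((M / j : ℕ) : ℝ) := by exact_mod_cast four_le_div P hj hjK
  have hDM : ((M / j : ℕ) : ℝ) ≤ M := by exact_mod_cast Nat.div_le_self M j
  simp only [cf]
  refine ⟨?_, ?_⟩
  · have := one_div_le_one_div_of_le four_pos hD
    linarith
  · have : 4 * ε ≤ 1 / ((M / j : ℕ) : ℝ) := by
      rw [le_div_iff₀ (by linarith)]; nlinarith [P.eps_le, P.eps_pos]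
    linarith

theorem cf_anti (P : Par M K h ε) {i j : ℕ} (hi : 1 ≤ i) (hij : i ≤ j) (hj : j ≤ K + 1) :
    cf M j ≤ cf M i := by
  have hD : (2 : ℝ) ≤ ((M / j : ℕ) : ℝ) := by exact_mod_cast two_le_div P (hi.trans hij) hj
  have hle : ((M / j : ℕ) : ℝ) ≤ ((M / i : ℕ) : ℝ) := by
    exact_mod_cast Nat.div_le_div_left hij hi
  simp only [cf]
  linarith [one_div_le_one_div_of_le (show (0 : ℝ) < ((M / j : ℕ) : ℝ) by linarith) hle]

theorem bs_mp_le (P : Par M K h ε) (hu : ∀ j, 1 ≤ j → j ≤ K + 1 → u j < M / j) {c : ℝ} :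
    ∀ (l : List ℕ) (j k : ℕ), 1 ≤ j → j + l.length ≤ K + 1 → 1 ≤ k → k + l.length ≤ K + 2 →
      cf M j ≤ c → bs k (mp M u j l) ≤ c * bs k l + l.length * ((K : ℝ) + 2) := by
  intro l
  induction l with
  | nil => intro j k _ _ _ _ _; simp [mp, bs]
  | cons x l ih =>
    intro j k hj hjl hk hkl hc
    simp only [List.length_cons] at hjl hkl ⊢
    have hjK : j ≤ K + 1 := by omega
    have hD : 0 < M / j := by have := two_le_div P hj hjK; omega
    obtain ⟨-, hup⟩ := g_bounds (x := x) hD (hu j hj hjK)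
    obtain ⟨h0, hik⟩ := inc_mem hk
    have hkK : (k : ℝ) ≤ (K : ℝ) + 2 := by exact_mod_cast (show k ≤ K + 2 by omega)
    have hz : (g (M / j) (u j) x : ℝ) ≤ c * x + 1 :=
      hup.trans (by have := mul_le_mul_of_nonneg_right hc (Nat.cast_nonneg x); simp only [cf] at this; linarith)
    have := ih (j + 1) (k + 1) (by omega) (by omega) (by omega) (by omega)
      (by rcases l with _ | ⟨y, l⟩
          · exact le_trans (le_trans (cf_anti P hj (by omega) (by omega)) le_rfl) hc
          · simp only [List.length_cons] at hjl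
            exact (cf_anti P hj (by omega) (by omega)).trans hc)
    simp only [mp, bs]
    push_cast
    nlinarith [mul_le_mul_of_nonneg_left hz h0]

theorem mp_le (P : Par M K h ε) (hu : ∀ j, 1 ≤ j → j ≤ K + 1 → u j < M / j) {X : ℕ} :
    ∀ (l : List ℕ) (j : ℕ), 1 ≤ j → j + l.length ≤ K + 1 → (∀ x ∈ l, x ≤ X) →
      ∀ z ∈ mp M u j l, (z : ℝ) ≤ cf M j * X + 1 := by
  intro l
  induction l with
  | nil => intro j _ _ _ z hz; simp [mp] at hz
  | cons x l ih =>
    intro j hj hjl hX z hz
    simp only [List.length_cons] at hjl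
    simp only [mp, List.mem_cons] at hz
    have hjK : j ≤ K + 1 := by omega
    rcases hz with rfl | hz
    · obtain ⟨-, hup⟩ := g_bounds (x := x) (by have := two_le_div P hj hjK; omega) (hu j hj hjK)
      have hxX : (x : ℝ) ≤ X := by exact_mod_cast hX x (List.mem_cons_self ..)
      have := mul_le_mul_of_nonneg_left hxX (le_trans (by norm_num) (cf_mem P hj hjK).1)
      simp only [cf] at this ⊢
      linarith
    · refine (ih (j + 1) (by omega) (by omega) (fun y hy => hX y (List.mem_cons_of_mem _ hy)) z hz).trans ?_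
      have := mul_le_mul_of_nonneg_right (cf_anti P hj (show j ≤ j + 1 by omega) (by omega))
        (Nat.cast_nonneg X)
      linarith

/-- The compressed tail is strictly decreasing, high and strictly nested. -/
theorem mp_good (P : Par M K h ε) (hu : ∀ j, 1 ≤ j → j ≤ K + 1 → u j < M / j) :
    ∀ (l : List ℕ) (j : ℕ), 1 ≤ j → j + l.length ≤ K + 1 → l.Pairwise (· ≥ ·) →
      (∀ x ∈ l, h ≤ (x : ℝ)) →
      (∀ t : List ℕ, t <:+ l → t ≠ [] →
        budL t ≤ (t.headI : ℝ) + (t.headI : ℝ) ^ ((19 : ℝ) / 20)) →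
      (mp M u j l).Pairwise (· > ·) ∧ (∀ z ∈ mp M u j l, h / 2 + 1 ≤ (z : ℝ)) ∧
        ∀ t : List ℕ, t <:+ mp M u j l → t ≠ [] → budL t ≤ (1 - ε) * (t.headI : ℝ) := by
  intro l
  induction l with
  | nil =>
    intro j _ _ _ _ _
    refine ⟨List.Pairwise.nil, fun z hz => by simp [mp] at hz, fun t ht hne => ?_⟩
    simp only [mp, List.suffix_nil] at ht
    exact absurd ht hne
  | cons x l ih =>
    intro j hj hjl hp hh hn
    simp only [List.length_cons] at hjl
    obtain ⟨hp1, hp2⟩ := List.pairwise_cons.1 hp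
    obtain ⟨i1, i2, i3⟩ := ih (j + 1) (by omega) (by omega) hp2
      (fun y hy => hh y (List.mem_cons_of_mem _ hy))
      (fun t ht => hn t (ht.trans (List.suffix_cons x l)))
    have hjK : j ≤ K := by omega
    obtain ⟨hlo, -⟩ := g_bounds (x := x) (by have := two_le_div P hj (show j ≤ K + 1 by omega); omega)
      (hu j hj (by omega))
    set z := g (M / j) (u j) x
    change (1 - 1 / ((M / j : ℕ) : ℝ)) * x - 1 ≤ (z : ℝ) at hlo
    rw [show 1 - 1 / ((M / j : ℕ) : ℝ) = cf M j from rfl] at hlo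
    obtain ⟨c1, c2⟩ := cf_mem P hj (show j ≤ K + 1 by omega)
    obtain ⟨d1, d2⟩ := cf_mem P (show 1 ≤ j + 1 by omega) (show j + 1 ≤ K + 1 by omega)
    have hgap := cf_gap P hj hjK
    have hxh := hh x (List.mem_cons_self ..)
    have hlev := P.level
    have heps := P.eps_pos
    have hεx := mul_le_mul_of_nonneg_left hxh heps.le
    have hK0 : (0 : ℝ) ≤ K := Nat.cast_nonneg K
    have hx0 : (0 : ℝ) ≤ x := Nat.cast_nonneg x
    have hpw : (mp M u j (x :: l)).Pairwise (· > ·) := by
      refine List.pairwise_cons.2 ⟨fun y hy => ?_, i1⟩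
      have h1 := mp_le P hu l (j + 1) (by omega) (by omega) hp1 y hy
      show y < z
      have : (y : ℝ) < (z : ℝ) := by
        have := mul_le_mul_of_nonneg_right hgap hx0
        nlinarith
      exact_mod_cast this
    refine ⟨hpw, fun y hy => ?_, fun t ht hne => ?_⟩
    · rcases List.mem_cons.1 hy with rfl | hy
      · have hh8 : 8 ≤ h := by nlinarith [P.small, sq_nonneg ((K : ℝ) + 1)]
        have := mul_le_mul c1 hxh (by linarith) (by linarith)
        change h / 2 + 1 ≤ (z : ℝ)
        linarith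
      · exact i2 y hy
    · simp only [mp] at ht hpw
      rcases List.suffix_cons_iff.1 ht with rfl | ht
      · rw [budL_cons (hpw.imp fun h => le_of_lt h)]
        have hb := hn (x :: l) List.suffix_rfl (List.cons_ne_nil _ _)
        rw [budL_cons hp] at hb
        simp only [List.headI_cons] at hb ⊢
        have h1 := bs_mp_le P hu (c := cf M (j + 1)) l (j + 1) 1 (by omega) (by omega) le_rfl (by omega) le_rfl
        have hlen : (l.length : ℝ) * ((K : ℝ) + 2) ≤ 2 * ((K : ℝ) + 1) ^ 2 := by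
          have : (l.length : ℝ) ≤ K := by exact_mod_cast (show l.length ≤ K by omega)
          nlinarith
        have h2 := mul_le_mul_of_nonneg_left (hb.trans (add_le_add le_rfl (P.power x hxh))) (show 0 ≤ cf M (j + 1) by linarith)
        have h3 := mul_le_mul_of_nonneg_right hgap hx0
        have h4 := mul_le_mul_of_nonneg_left hlo (show 0 ≤ 1 - ε by linarith [P.small])
        have h5 : cf M (j + 1) * (ε * x / 2) ≤ ε * x / 2 :=
          mul_le_of_le_one_left (by positivity) (by linarith)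
        have h6 : cf M j * (x : ℝ) * ε ≤ ε * x := by
          have := mul_le_mul_of_nonneg_right (show cf M j ≤ 1 by linarith) (show 0 ≤ ε * x by positivity)
          linarith
        change bs 1 (mp M u (j + 1) l) ≤ (1 - ε) * (z : ℝ)
        have h7 : bs 1 (mp M u (j + 1) l) ≤ cf M j * x - 3 * (ε * x) + ε * x / 2 + 2 * ((K : ℝ) + 1) ^ 2 := by
          linarith
        have h8 : cf M j * x - ε * x - 1 ≤ (1 - ε) * (z : ℝ) := by linarith
        have h9 : 2 * ((K : ℝ) + 1) ^ 2 + 1 ≤ ε * x := by linarith [sq_nonneg ((K : ℝ) + 1)]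
        linarith [sq_nonneg ((K : ℝ) + 1)]
      · exact i3 t ht hne

theorem mp_inj (P : Par M K h ε) (hu : ∀ j, 1 ≤ j → j ≤ K + 1 → u j < M / j) :
    ∀ (l l' : List ℕ) (j : ℕ), 1 ≤ j → j + l.length ≤ K + 1 → okL M u j l → okL M u j l' →
      mp M u j l = mp M u j l' → l = l' := by
  intro l
  induction l with
  | nil =>
    intro l' j _ _ _ _ he
    cases l' with
    | nil => rfl
    | cons y l' => simp [mp] at he
  | cons x l ih =>
    intro l' j hj hjl hok hok' he
    simp only [List.length_cons] at hjl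
    cases l' with
    | nil => simp [mp] at he
    | cons y l' =>
      simp only [mp, List.cons.injEq] at he
      have hD := two_le_div P hj (show j ≤ K + 1 by omega)
      have huj := hu j hj (by omega)
      rcases lt_trichotomy x y with hlt | rfl | hlt
      · exact absurd he.1 (g_lt hD hlt huj hok'.1).ne
      · rw [ih l' (j + 1) (by omega) (by omega) hok.2 hok'.2 he.2]
      · exact absurd he.1.symm (g_lt hD hlt huj hok.1).ne

theorem okL_of_forall : ∀ (l : List ℕ) (j : ℕ),
    (∀ i, (hi : i < l.length) → ¬ (M / (j + i)) ∣ l[i] + u (j + i)) → okL M u j l := by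
  intro l
  induction l with
  | nil => intro j _; exact trivial
  | cons x l ih =>
    intro j hl
    refine ⟨hl 0 (Nat.succ_pos _), ih (j + 1) fun i hi => ?_⟩
    have := hl (i + 1) (by simpa using hi)
    simpa [Nat.add_assoc, Nat.add_comm 1 i] using this

/-- Some shifts keep at least half of a set of tails in single fibres. -/
theorem exists_shifts (P : Par M K h ε) (T : Finset (List ℕ)) (hT : ∀ l ∈ T, l.length ≤ K) :
    ∃ u : ℕ → ℕ, (∀ j, 1 ≤ j → j ≤ K + 1 → u j < M / j) ∧
      ∃ T' : Finset (List ℕ), T' ⊆ T ∧ (∀ l ∈ T', okL M u 1 l) ∧ T.card ≤ 2 * T'.card := by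
  classical
  let B : ℕ → ℕ → Finset (List ℕ) := fun j v =>
    T.filter fun l => j - 1 < l.length ∧ (M / j) ∣ l.getD (j - 1) 0 + v
  have hpick : ∀ j, ∃ v, (0 < M / j → v < M / j ∧ (B j v).card * (M / j) ≤ T.card) := fun j => by
    by_cases hD : 0 < M / j
    · have hsum : ∑ v ∈ range (M / j), (B j v).card ≤ T.card := by
        rw [← Finset.card_biUnion]
        · exact card_le_card (Finset.biUnion_subset.2 fun v _ => filter_subset _ _)
        · intro v hv v' hv' hne
          refine Finset.disjoint_left.2 fun l h1 h2 => hne ?_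
          simp only [B, mem_filter] at h1 h2
          have hv1 : v < M / j := mem_range.1 hv
          have hv2 : v' < M / j := mem_range.1 hv'
          have := ((Nat.modEq_zero_iff_dvd.2 h1.2.2).trans (Nat.modEq_zero_iff_dvd.2 h2.2.2).symm)
          exact Nat.ModEq.eq_of_lt_of_lt (Nat.ModEq.add_left_cancel' _ this) hv1 hv2
      obtain ⟨v, hv, hmin⟩ := exists_min_image (range (M / j)) (fun v => (B j v).card) ⟨0, mem_range.2 hD⟩
      refine ⟨v, fun _ => ⟨mem_range.1 hv, le_trans ?_ hsum⟩⟩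
      rw [mul_comm]
      simpa using card_nsmul_le_sum (range (M / j)) (fun v => (B j v).card) _ hmin
    · exact ⟨0, fun h => absurd h hD⟩
  choose u hu using hpick
  have hu' : ∀ j, 1 ≤ j → j ≤ K + 1 → u j < M / j ∧ (B j (u j)).card * (M / j) ≤ T.card :=
    fun j hj hjK => hu j (by have := two_le_div P hj hjK; omega)
  refine ⟨u, fun j hj hjK => (hu' j hj hjK).1, T.filter (fun l => okL M u 1 l), filter_subset _ _,
    fun l hl => (mem_filter.1 hl).2, ?_⟩
  have hbad : T.filter (fun l => ¬ okL M u 1 l) ⊆ (range K).biUnion fun i => B (i + 1) (u (i + 1)) := by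
    intro l hl
    obtain ⟨hlT, hno⟩ := mem_filter.1 hl
    by_contra hc
    refine hno (okL_of_forall l 1 fun i hi hd => hc (mem_biUnion.2 ⟨i, mem_range.2 ?_, ?_⟩))
    · exact lt_of_lt_of_le hi (hT l hlT)
    · simp only [B, mem_filter, Nat.add_sub_cancel, List.getD_eq_getElem?_getD,
        List.getElem?_eq_getElem hi, Option.getD_some]
      exact ⟨hlT, hi, by simpa [Nat.add_comm 1 i] using hd⟩
  have hcard : 2 * (T.filter (fun l => ¬ okL M u 1 l)).card ≤ T.card := by
    refine le_trans (Nat.mul_le_mul_left 2 ((card_le_card hbad).trans card_biUnion_le)) ?_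
    rcases Nat.eq_zero_or_pos K with rfl | hK
    · simp
    have h1 : ∀ i ∈ range K, (B (i + 1) (u (i + 1))).card * (2 * K) ≤ T.card := fun i hi => by
      have hi' := mem_range.1 hi
      refine le_trans (Nat.mul_le_mul_left _ ?_) (hu' (i + 1) (by omega) (by omega)).2
      rw [Nat.le_div_iff_mul_le (by omega)]
      nlinarith [P.big]
    have h2 := Finset.sum_le_sum h1
    rw [← Finset.sum_mul, sum_const, card_range, smul_eq_mul] at h2
    exact Nat.le_of_mul_le_mul_left (by linarith) hK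
  have := card_filter_add_card_filter_not (s := T) (fun l => okL M u 1 l)
  omega

end Vale.Agent.P031.Layer
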