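import Vale.Agent.P031.Defs

/-!
# Distinct values of Euler's totient: interfaces

Statements only, as `Prop` definitions; each module proves one group of them.
-/

open Filter Topology Finset
open scoped Classical

namespace Vale.Agent.P031

/-- Module `PNT`. -/
def PNTStmt : Prop :=
  Tendsto (fun x : ℝ => (Nat.primeCounting ⌊x⌋₊ : ℝ) * Real.log x / x) atTop (𝓝 1)

/-- Module `Mertens`: each level carries mass one. -/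
def MertensStmt : Prop :=
  ∃ C : ℝ, ∀ k : ℕ, |(∑ p ∈ cell k, (1 : ℝ) / p) - 1| ≤ C * Real.exp (-(k : ℝ))

/-- Module `Sieve`: shifted primes avoiding a set of primes. -/
def SieveAvoidStmt : Prop :=
  ∃ C : ℝ, ∀ (Y : ℝ), 2 ≤ Y → ∀ S : Finset ℕ, (∀ r ∈ S, r.Prime ∧ 3 ≤ r ∧ (r : ℝ) ≤ Y) →
    (((Finset.Icc 2 ⌊Y⌋₊).filter (fun q => q.Prime ∧ ∀ r ∈ S, ¬ r ∣ q - 1)).card : ℝ) ≤
      C * Y / Real.log Y * Real.exp (-∑ r ∈ S, (1 : ℝ) / r)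

/-- Module `Sieve`: primes in a progression to the modulus `d`. -/
def SieveProgStmt : Prop :=
  ∃ C : ℝ, ∀ (Y : ℝ), 2 ≤ Y → ∀ d : ℕ, 0 < d →
    (((Finset.Icc 1 ⌊Y⌋₊).filter (fun n => (d * n + 1).Prime)).card : ℝ) ≤
      C * Y / Real.log Y * ((d : ℝ) / d.totient)

/-- Module `Sieve`: one linear form with a prime argument. -/
def SievePairStmt : Prop :=
  ∃ C : ℝ, ∃ e : ℕ, ∀ (Y : ℝ), 2 ≤ Y → ∀ a : ℕ, 0 < a →
    (((Finset.Icc 1 ⌊Y⌋₊).filter (fun n => n.Prime ∧ (a * n + 1).Prime)).card : ℝ) ≤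
      C * Y / Real.log Y ^ 2 * Real.log (Real.log ((a : ℝ) + 16)) ^ e

/-- Module `Sieve`: two linear forms with a prime argument. -/
def SieveTripleStmt : Prop :=
  ∃ C : ℝ, ∃ e : ℕ, ∀ (Y : ℝ), 2 ≤ Y → ∀ a b : ℕ, 0 < a → 0 < b → a ≠ b →
    (((Finset.Icc 1 ⌊Y⌋₊).filter
        (fun n => n.Prime ∧ (a * n + 1).Prime ∧ (b * n + 1).Prime)).card : ℝ) ≤
      C * Y / Real.log Y ^ 3 * Real.log (Real.log ((a : ℝ) + b + 16)) ^ e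

/-- Module `Normality`: abnormal primes are rare, counted in one level up to `Y`. -/
def AbnormalCountStmt : Prop :=
  ∃ c C : ℝ, 0 < c ∧ ∀ (k : ℕ) (Y : ℝ), 2 ≤ Y →
    (((cell k).filter (fun q : ℕ => (q : ℝ) ≤ Y ∧ ¬ Normal q)).card : ℝ) ≤
      C * Y / Real.log Y * Real.exp (-c * (k : ℝ) ^ ((1 : ℝ) / 2))

/-- Module `Normality`: abnormal primes are rare, by reciprocals. -/
def AbnormalSumStmt : Prop :=
  ∃ c C : ℝ, 0 < c ∧ ∀ k : ℕ,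
    (∑ q ∈ (cell k).filter (fun q : ℕ => ¬ Normal q), (1 : ℝ) / q) ≤
      C * Real.exp (-c * (k : ℝ) ^ ((1 : ℝ) / 2))

/-- Error term of the lemmas about profiles. -/
noncomputable def profErr (T K k : ℕ) : ℝ :=
  ((K : ℝ) + 1) ^ 3 * ((T : ℝ) + (k : ℝ) ^ ((4 : ℝ) / 5) + 1)

/-- Module `Exceed`: reciprocal sum of smooth numbers carrying a given budget. -/
def ExceedSumStmt : Prop :=
  ∃ C : ℝ, ∀ (T K k : ℕ), C ≤ (T : ℝ) → K ≤ T → T < k → ∀ (β : ℝ) (M : Finset ℕ),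
    (∀ m ∈ M, 0 < m ∧ Smooth k m ∧ ∃ S : Finset ℕ, (∀ q ∈ S, Normal q) ∧ S.card ≤ K ∧
      topS S = k ∧ shiftProd S ∣ m ∧ β ≤ budS T S) →
    (∑ m ∈ M, (1 : ℝ) / m) ≤ Real.exp ((k : ℝ) - β + C * profErr T K k)

/-- Module `Exceed`: integers up to `X` carrying a given budget. -/
def ExceedCountStmt : Prop :=
  ∃ C : ℝ, ∀ (T K k : ℕ), C ≤ (T : ℝ) → K ≤ T → T < k → ∀ (β X : ℝ) (M : Finset ℕ),
    3 ≤ X → (k : ℝ) ≤ Real.log (Real.log X) →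
    (∀ m ∈ M, 0 < m ∧ (m : ℝ) ≤ X ∧ ∃ S : Finset ℕ, (∀ q ∈ S, Normal q) ∧ S.card ≤ K ∧
      topS S = k ∧ shiftProd S ∣ m ∧ β ≤ budS T S) →
    (M.card : ℝ) ≤ X * Real.exp (-β + C * profErr T K k)

/-- Module `Crude`: totient values are sparse. -/
def CrudeStmt : Prop :=
  ∃ C : ℝ, ∀ (u : ℕ) (M : Finset ℕ), (∀ m ∈ M, IsTotUpTo u m) →
    (∑ m ∈ M, (1 : ℝ) / m) ≤ Real.exp (C * Real.log ((u : ℝ) + 2) ^ 2)

/-- Hypotheses on a pair of representations of one value, with top level `k`. -/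
def CollPair (T K W k : ℕ) (β : ℝ) (P : Rep × Rep) : Prop :=
  P.1.1.Nonempty ∧ P.1.1.card ≤ K ∧ P.2.1.card ≤ K ∧ Disjoint P.1.1 P.2.1 ∧
    (∀ q ∈ P.1.1, Normal q ∧ T < kap q) ∧ (∀ q ∈ P.2.1, q.Prime ∧ T < kap q) ∧
    0 < P.1.2 ∧ 0 < P.2.2 ∧ Smooth T P.1.2 ∧ Smooth T P.2.2 ∧
    topS P.1.1 = k ∧ topS P.2.1 ≤ k ∧ budS T P.1.1 ≤ β ∧
    P.1.val = P.2.val ∧ RoughSqfree T P.1.val ∧ bigOm P.1.val ≤ W

/-- Error term of the collision lemma. -/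
noncomputable def collErr (T K W k : ℕ) : ℝ :=
  ((K : ℝ) + 1) ^ 3 *
    ((T : ℝ) + (k : ℝ) ^ ((4 : ℝ) / 5) + Real.log ((W : ℝ) + 2) + 1)

/-- Module `Collision`: reciprocal sum over coincidences. -/
def CollSumStmt : Prop :=
  ∃ C : ℝ, ∀ (T K W k : ℕ), C ≤ (T : ℝ) → K ≤ T → T < k → ∀ (β : ℝ) (P : Finset (Rep × Rep)),
    (∀ p ∈ P, CollPair T K W k β p) →
    (∑ p ∈ P, (1 : ℝ) / p.1.val) ≤ Real.exp (β - (k : ℝ) + C * collErr T K W k)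

/-- Module `Collision`: coincidences up to `X`. -/
def CollCountStmt : Prop :=
  ∃ C : ℝ, ∀ (T K W k : ℕ), C ≤ (T : ℝ) → K ≤ T → T < k →
    ∀ (β X : ℝ) (P : Finset (Rep × Rep)), 3 ≤ X →
    (∀ p ∈ P, CollPair T K W k β p ∧ (p.1.val : ℝ) ≤ X) →
    (P.card : ℝ) ≤ X * Real.exp (β - 2 * (k : ℝ) + C * collErr T K W k)

/-- The good lists of the lower bound: strictly decreasing, strictly nested below `L`. -/
def GoodList (L : ℕ) (h w : ℕ) (ε : ℝ) (l : List ℕ) : Prop :=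
  (L :: l).Pairwise (· > ·) ∧ (∀ x ∈ l, h < 2 * x) ∧
    (∀ t : List ℕ, t <:+ l → t ≠ [] → budL t ≤ (1 - ε) * (t.headI : ℝ)) ∧
    budL (L :: l) ≤ (L : ℝ) - 2 * w ∧ (∀ x ∈ l, (x : ℝ) ≤ (1 - ε) * L)

/-- The lists of a boundary layer of width `w`. -/
def LayerFamily (L K h w : ℕ) (A : Finset (List ℕ)) : Prop :=
  (∀ l ∈ A, l ≠ [] ∧ l.length ≤ K ∧ (L :: l).Pairwise (· ≥ ·) ∧ (∀ x ∈ l, h < x) ∧
      (∀ t : List ℕ, t <:+ l → t ≠ [] →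
        budL t ≤ (t.headI : ℝ) + (t.headI : ℝ) ^ ((19 : ℝ) / 20)) ∧
      L ≤ 100 * l.headI ∧ budL (L :: l) ≤ (L : ℝ) + w) ∧
    ∀ l ∈ A, ∀ l' ∈ A, l.tail = l'.tail → l.headI ≤ l'.headI + w

/-- Module `Layer`: the boundary layer is small. Here `λ = log L`, `h = ⌊λ^200⌋`,
`K ≤ 20 λ`, `w ≤ L^(91/100)` and `ε = λ^(-6)`. -/
def LayerStmt : Prop :=
  ∃ L₀ : ℕ, ∀ L ≥ L₀, ∀ K w : ℕ, (K : ℝ) ≤ 20 * Real.log L →
    (w : ℝ) ≤ (L : ℝ) ^ ((91 : ℝ) / 100) → ∀ A : Finset (List ℕ),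
    LayerFamily L K ⌊Real.log L ^ 200⌋₊ w A →
    ∃ Good : Finset (List ℕ),
      (∀ l ∈ Good, l.length ≤ K ∧
        GoodList L ⌊Real.log L ^ 200⌋₊ w (Real.log L ^ (-(6 : ℝ))) l) ∧
      (A.card : ℝ) * (L : ℝ) ^ ((1 : ℝ) / 50) ≤ Good.card + 1

end Vale.Agent.P031
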