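import Vale.Agent.P031.Euler

/-!
# Crude bound: elementary parts

Bounds for sums of reciprocals over sets of totient values, peeling one prime power at a time.
-/

open Finset
open scoped Classical

namespace Vale.Agent.P031.Crude

/-- Every finite set inside the property has reciprocal sum at most the bound. -/
def Bd (Q : ℕ → Prop) (B : ℝ) : Prop :=
  ∀ M : Finset ℕ, (∀ m ∈ M, Q m) → ∑ m ∈ M, (1 : ℝ) / m ≤ B

lemma Bd.nonneg {Q : ℕ → Prop} {B : ℝ} (h : Bd Q B) : 0 ≤ B := by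
  simpa using h ∅ (by simp)

lemma Bd.mono {Q Q' : ℕ → Prop} {B B' : ℝ} (h : Bd Q B) (hQ : ∀ m, Q' m → Q m) (hB : B ≤ B') :
    Bd Q' B' := fun M hM => (h M fun m hm => hQ m (hM m hm)).trans hB

lemma Bd.or {Q Q₁ Q₂ : ℕ → Prop} {B₁ B₂ : ℝ} (h₁ : Bd Q₁ B₁) (h₂ : Bd Q₂ B₂)
    (hQ : ∀ m, Q m → Q₁ m ∨ Q₂ m) : Bd Q (B₁ + B₂) := by
  intro M hM
  rw [← sum_filter_add_sum_filter_not M Q₁]
  refine add_le_add (h₁ _ fun m hm => (mem_filter.1 hm).2) (h₂ _ fun m hm => ?_)
  obtain ⟨hm1, hm2⟩ := mem_filter.1 hm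
  exact (hQ m (hM m hm1)).resolve_left hm2

lemma totient_pow_lower {p : ℕ} (hp : p.Prime) (b : ℕ) :
    (p : ℝ) ^ (b + 1) / 2 ≤ ((p ^ (b + 1)).totient : ℝ) := by
  have h2 : (2 : ℝ) ≤ p := by exact_mod_cast hp.two_le
  rw [Nat.totient_prime_pow_succ hp, Nat.cast_mul, Nat.cast_pow, Nat.cast_sub hp.one_le,
    Nat.cast_one, pow_succ]
  have : (0 : ℝ) ≤ (p : ℝ) ^ b := by positivity
  nlinarith

lemma geom_le {r : ℝ} (h0 : 0 ≤ r) (h1 : r ≤ 1 / 2) (A : Finset ℕ) :
    ∑ b ∈ A, 2 * r ^ (b + 1) ≤ 4 * r := by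
  have h : ∑ b ∈ A, r ^ b ≤ 2 := by
    refine ((summable_geometric_of_lt_one h0 (by linarith)).sum_le_tsum _
      fun i _ => pow_nonneg h0 i).trans ?_
    rw [tsum_geometric_of_lt_one h0 (by linarith), inv_le_comm₀ (by linarith) (by norm_num)]
    linarith
  have e : ∀ b : ℕ, 2 * r ^ (b + 1) = 2 * r * r ^ b := fun b => by ring
  simp_rw [e, ← mul_sum]
  nlinarith

/-- Peeling one prime power. -/
lemma peel {Q Q' : ℕ → Prop} {B : ℝ} (hQ : Bd Q B) (P : Finset ℕ) (hP : ∀ p ∈ P, p.Prime)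
    (h : ∀ m, Q' m → ∃ p ∈ P, ∃ b m', Q m' ∧ m = (p ^ (b + 1)).totient * m') :
    Bd Q' (4 * (∑ p ∈ P, (1 : ℝ) / p) * B) := by
  intro M hM
  choose! p hp b m' hm' he using fun m hm => h m (hM m hm)
  set enc : ℕ → ℕ × ℕ × ℕ := fun m => (p m, b m, m' m) with henc
  have hinj : Set.InjOn enc M := by
    intro x hx y hy hxy
    simp only [henc, Prod.mk.injEq] at hxy
    rw [he x hx, he y hy, hxy.1, hxy.2.1, hxy.2.2]
  set f : ℕ × ℕ × ℕ → ℝ := fun x => 2 * (1 / (x.1 : ℝ)) ^ (x.2.1 + 1) * (1 / (x.2.2 : ℝ))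
    with hf
  calc ∑ m ∈ M, (1 : ℝ) / m
      ≤ ∑ m ∈ M, f (enc m) := by
        refine sum_le_sum fun m hm => ?_
        have hpr := hP _ (hp m hm)
        have h2 : (0 : ℝ) < (p m : ℝ) ^ (b m + 1) / 2 :=
          div_pos (pow_pos (by exact_mod_cast hpr.pos) _) two_pos
        calc (1 : ℝ) / m
            = (1 / ((p m ^ (b m + 1)).totient : ℝ)) * (1 / (m' m : ℝ)) := by
              conv_lhs => rw [he m hm]
              push_cast
              rw [div_mul_div_comm, one_mul]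
          _ ≤ (1 / ((p m : ℝ) ^ (b m + 1) / 2)) * (1 / (m' m : ℝ)) :=
              mul_le_mul_of_nonneg_right
                (one_div_le_one_div_of_le h2 (totient_pow_lower hpr _)) (by positivity)
          _ = f (enc m) := by
              simp only [hf, henc, one_div, inv_pow]
              field_simp
    _ = ∑ x ∈ M.image enc, f x := (sum_image hinj).symm
    _ ≤ ∑ x ∈ P ×ˢ (M.image b ×ˢ M.image m'), f x := by
        refine sum_le_sum_of_subset_of_nonneg ?_ fun x _ _ => by simp only [hf]; positivity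
        intro x hx
        obtain ⟨m, hm, rfl⟩ := mem_image.1 hx
        simp only [henc, mem_product]
        exact ⟨hp m hm, mem_image_of_mem _ hm, mem_image_of_mem _ hm⟩
    _ = ∑ q ∈ P, (∑ c ∈ M.image b, 2 * (1 / (q : ℝ)) ^ (c + 1)) *
          ∑ n ∈ M.image m', (1 : ℝ) / n := by
        rw [sum_product]
        refine sum_congr rfl fun q _ => ?_
        rw [sum_product, sum_mul_sum]
    _ ≤ ∑ q ∈ P, 4 * (1 / (q : ℝ)) * B := by
        refine sum_le_sum fun q hq => ?_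
        have h2 : (2 : ℝ) ≤ q := by exact_mod_cast (hP q hq).two_le
        refine mul_le_mul (geom_le (by positivity) (one_div_le_one_div_of_le two_pos h2) _)
          (hQ _ ?_) (sum_nonneg fun _ _ => by positivity) (by positivity)
        intro n hn
        obtain ⟨m, hm, rfl⟩ := mem_image.1 hn
        exact hm' m hm
    _ = 4 * (∑ q ∈ P, (1 : ℝ) / q) * B := by rw [mul_sum, sum_mul]

/-- Splitting off the full power of a prime divisor. -/
lemma split {n p : ℕ} (hn : 0 < n) (hp : p ∈ n.primeFactors) :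
    ∃ b n', 0 < n' ∧ n.totient = (p ^ (b + 1)).totient * n'.totient ∧
      n'.primeFactors ⊆ n.primeFactors.erase p := by
  have hpp := (Nat.mem_primeFactors.1 hp).1
  have hdvd := (Nat.mem_primeFactors.1 hp).2.1
  have ha : 1 ≤ n.factorization p := hpp.factorization_pos_of_dvd hn.ne' hdvd
  refine ⟨n.factorization p - 1, n / p ^ n.factorization p, Nat.ordCompl_pos p hn.ne', ?_, ?_⟩
  · rw [Nat.sub_add_cancel ha, ← Nat.totient_mul, Nat.ordProj_mul_ordCompl_eq_self]
    exact (Nat.coprime_ordCompl hpp hn.ne').pow_left _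
  · intro q hq
    have hq' := Nat.mem_primeFactors.1 hq
    refine mem_erase.2 ⟨?_, Nat.mem_primeFactors.2
      ⟨hq'.1, hq'.2.1.trans (Nat.ordCompl_dvd n p), hn.ne'⟩⟩
    rintro rfl
    exact Nat.not_dvd_ordCompl hpp hn.ne' hq'.2.1

/-- Totients of numbers built from a given finite set of primes. -/
lemma bd_primes (T : Finset ℕ) (hT : ∀ p ∈ T, p.Prime) :
    ∃ B : ℝ, Bd (fun m => ∃ n, 0 < n ∧ n.totient = m ∧ n.primeFactors ⊆ T) B := by
  induction T using Finset.induction with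
  | empty =>
    refine ⟨1, fun M hM => ?_⟩
    have h : M ⊆ {1} := by
      intro m hm
      obtain ⟨n, hn, rfl, hs⟩ := hM m hm
      rcases Nat.primeFactors_eq_empty.1 (subset_empty.1 hs) with h0 | h0
      · omega
      · simp [h0]
    exact (sum_le_sum_of_subset_of_nonneg h fun _ _ _ => by positivity).trans (by simp)
  | @insert p T hp ih =>
    obtain ⟨B, hB⟩ := ih fun q hq => hT q (mem_insert_of_mem hq)
    refine ⟨B + 4 * (∑ q ∈ ({p} : Finset ℕ), (1 : ℝ) / q) * B,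
      hB.or (peel hB {p} (by simpa using hT p (mem_insert_self p T))
        (Q' := fun m => ∃ b m', (∃ n, 0 < n ∧ n.totient = m' ∧ n.primeFactors ⊆ T) ∧
          m = (p ^ (b + 1)).totient * m') fun m hm => ⟨p, mem_singleton_self p, hm⟩) ?_⟩
    rintro m ⟨n, hn, rfl, hs⟩
    by_cases hpn : p ∈ n.primeFactors
    · obtain ⟨b, n', hn', he, hsub⟩ := split hn hpn
      refine Or.inr ⟨b, n'.totient, ⟨n', hn', rfl, fun q hq => ?_⟩, he⟩
      obtain ⟨hne, hq'⟩ := mem_erase.1 (hsub hq)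
      exact (mem_insert.1 (hs hq')).resolve_left hne
    · refine Or.inl ⟨n, hn, rfl, fun q hq => (mem_insert.1 (hs hq)).resolve_left ?_⟩
      rintro rfl
      exact hpn hq

/-- Totients of smooth numbers have bounded reciprocal sums. -/
lemma exists_bd (u : ℕ) : ∃ B : ℝ, Bd (IsTotUpTo u) B := by
  obtain ⟨B, hB⟩ := bd_primes ((range (u + 1)).biUnion cell) (by
    intro p hp
    obtain ⟨s, -, hs⟩ := mem_biUnion.1 hp
    exact (mem_cell.1 hs).1)
  refine ⟨B, hB.mono ?_ le_rfl⟩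
  rintro m ⟨n, hn, rfl, hs⟩
  refine ⟨n, hn, rfl, fun p hp => mem_biUnion.2 ⟨kap p, mem_range.2 (Nat.lt_succ_of_le (hs p hp)),
    mem_cell.2 ⟨(Nat.mem_primeFactors.1 hp).1, rfl⟩⟩⟩

/-- Primes with level in `(v, u]`. -/
noncomputable def band (v u : ℕ) : Finset ℕ := (Ioc v u).biUnion cell

lemma mem_band {v u p : ℕ} : p ∈ band v u ↔ p.Prime ∧ v < kap p ∧ kap p ≤ u := by
  simp only [band, mem_biUnion, mem_Ioc, mem_cell]
  constructor
  · rintro ⟨s, hs, hp, rfl⟩; exact ⟨hp, hs⟩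
  · rintro ⟨hp, hs⟩; exact ⟨kap p, hs, hp, rfl⟩

lemma sum_band_le (v u : ℕ) (f : ℕ → ℝ) (_hf : ∀ p, 0 ≤ f p) :
    ∑ p ∈ band v u, f p ≤ ∑ s ∈ Ioc v u, ∑ p ∈ cell s, f p := by
  rw [band, sum_biUnion]
  intro a _ b _ hab
  rw [Function.onFun, disjoint_left]
  intro p hpa hpb
  exact hab ((mem_cell.1 hpa).2.symm.trans (mem_cell.1 hpb).2)

lemma band_mass {C : ℝ} (hC : ∀ k : ℕ, |(∑ p ∈ cell k, (1 : ℝ) / p) - 1| ≤
    C * Real.exp (-(k : ℝ))) (v u : ℕ) :
    ∑ p ∈ band v u, (1 : ℝ) / p ≤ (u : ℝ) * (1 + |C|) := by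
  refine (sum_band_le v u _ fun p => by positivity).trans ?_
  calc ∑ s ∈ Ioc v u, ∑ p ∈ cell s, (1 : ℝ) / p ≤ ∑ _s ∈ Ioc v u, (1 + |C|) := by
        refine sum_le_sum fun s _ => ?_
        have h := (abs_le.1 (hC s)).2
        have h1 : Real.exp (-(s : ℝ)) ≤ 1 :=
          Real.exp_le_one_iff.2 (neg_nonpos.2 (Nat.cast_nonneg s))
        nlinarith [le_abs_self C, Real.exp_pos (-(s : ℝ)), abs_nonneg C]
    _ = ((u - v : ℕ) : ℝ) * (1 + |C|) := by simp [sum_const]; ring
    _ ≤ _ := by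
        refine mul_le_mul_of_nonneg_right ?_ (by positivity)
        exact_mod_cast Nat.sub_le u v

lemma kap_mono {a b : ℕ} (ha : 2 ≤ a) (h : a ≤ b) : kap a ≤ kap b := by
  have ha' : (2 : ℝ) ≤ a := by exact_mod_cast ha
  refine Nat.floor_mono (Real.log_le_log (Real.log_pos (by linarith)) ?_)
  exact Real.log_le_log (by linarith) (by exact_mod_cast h)

/-- Prime factors of a totient have level at most the top level of the number. -/
lemma totient_smooth {k n : ℕ} (hn : 0 < n) (h : Smooth k n) : Smooth k n.totient := by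
  intro r hr
  obtain ⟨hrp, hrd, -⟩ := Nat.mem_primeFactors.1 hr
  rw [Nat.totient_eq_prod_factorization hn.ne', Finsupp.prod, Nat.support_factorization] at hrd
  obtain ⟨p, hp, hd⟩ := (Nat.prime_iff.1 hrp).exists_mem_finset_dvd hrd
  have hpp := (Nat.mem_primeFactors.1 hp).1
  refine (kap_mono hrp.two_le ?_).trans (h p hp)
  rcases hrp.dvd_mul.1 hd with hd | hd
  · exact ((Nat.prime_dvd_prime_iff_eq hrp hpp).1 (hrp.dvd_of_dvd_pow hd)).le
  · exact (Nat.le_of_dvd (by have := hpp.two_le; omega) hd).trans (Nat.sub_le p 1)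

lemma shiftProd_dvd {n : ℕ} (hn : 0 < n) {S : Finset ℕ} (hS : S ⊆ n.primeFactors) :
    shiftProd S ∣ n.totient := by
  rw [Nat.totient_eq_prod_factorization hn.ne', Finsupp.prod, Nat.support_factorization,
    shiftProd]
  exact (Finset.prod_dvd_prod_of_subset _ _ _ hS).trans
    (Finset.prod_dvd_prod_of_dvd _ _ fun p _ => Dvd.intro_left _ rfl)

lemma Qf_nonneg (t : ℕ) : 0 ≤ Qf t := by
  unfold Qf
  rcases Nat.eq_zero_or_pos t with h | h
  · simp [h]
  · have ht : (0 : ℝ) < t := by exact_mod_cast h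
    have h1 := mul_le_mul_of_nonneg_left (Real.one_sub_inv_le_log_of_pos ht) ht.le
    rw [mul_sub, mul_one, mul_inv_cancel₀ ht.ne'] at h1
    linarith

lemma Qf_three : (1.28 : ℝ) ≤ Qf 3 := by
  have h9 : Real.log 9 = 3 * Real.log 2 + Real.log (9 / 8) := by
    rw [show (9 : ℝ) = 2 ^ 3 * (9 / 8) by norm_num, Real.log_mul (by norm_num) (by norm_num),
      Real.log_pow]
    norm_num
  have h3 : Real.log 9 = 2 * Real.log 3 := by
    rw [show (9 : ℝ) = 3 ^ 2 by norm_num, Real.log_pow]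
    norm_num
  have h := Real.one_sub_inv_le_log_of_pos (show (0 : ℝ) < 9 / 8 by norm_num)
  norm_num at h
  unfold Qf
  push_cast
  linarith [Real.log_two_gt_d9]

/-- Three levels above `v` give a budget of `Qf 3` on each level up to `v`. -/
lemma budS_lower {T v : ℕ} {S : Finset ℕ} (hne : S.Nonempty) (hS : ∀ q ∈ S, v < kap q)
    (hc : S.card = 3) : ((v : ℝ) - T) * 1.28 ≤ budS T S := by
  obtain ⟨q, hq⟩ := hne
  have hv : v ≤ topS S := (hS q hq).le.trans (Finset.le_sup (f := kap) hq)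
  calc ((v : ℝ) - T) * 1.28 ≤ ((v - T : ℕ) : ℝ) * 1.28 := by
        refine mul_le_mul_of_nonneg_right ?_ (by norm_num)
        rcases le_total T v with h | h
        · rw [Nat.cast_sub h]
        · have h' : (v : ℝ) ≤ T := by exact_mod_cast h
          linarith [show (0 : ℝ) ≤ ((v - T : ℕ) : ℝ) from Nat.cast_nonneg _]
    _ = ∑ _s ∈ Ioc T v, (1.28 : ℝ) := by simp
    _ ≤ ∑ s ∈ Ioc T v, Qf (lamS S s) := by
        refine sum_le_sum fun s hs => ?_
        have : lamS S s = 3 := by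
          rw [lamS, filter_true_of_mem fun x hx => ((mem_Ioc.1 hs).2.trans (hS x hx).le), hc]
        rw [this]
        exact Qf_three
    _ ≤ budS T S :=
        sum_le_sum_of_subset_of_nonneg (Finset.Ioc_subset_Ioc_right hv) fun _ _ _ => Qf_nonneg _

end Vale.Agent.P031.Crude
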