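import Vale.Agent.P031.Euler

/-!
# Integers carrying a large budget are rare

Each integer divisible by `shiftProd S`, for a set `S` of normal primes, gets the completely
multiplicative weight `lamS S s` at level `s`; by normality that weight is at least
`exp (∑ λ log λ - error)`, while the Euler product is `exp (∑ λ + error)`.
-/

open Finset
open scoped Classical

namespace Vale.Agent.P031.Exceed

/-- The number of coordinates of a profile at level at least `s`. -/
def lamV {K k : ℕ} (v : Fin K → Fin (k + 1)) (s : ℕ) : ℕ :=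
  (univ.filter (fun j => s ≤ (v j : ℕ))).card

/-- The weight of a profile at level `s`. -/
def zV {K k : ℕ} (T : ℕ) (v : Fin K → Fin (k + 1)) (s : ℕ) : ℝ :=
  if T < s ∧ s ≤ k then ((max 1 (lamV v s) : ℕ) : ℝ) else 1

lemma zV_bounds {K k : ℕ} (T : ℕ) (v : Fin K → Fin (k + 1)) (s : ℕ) :
    1 ≤ zV T v s ∧ zV T v s ≤ (K : ℝ) + 1 ∧ (1 < zV T v s → T < s) := by
  unfold zV
  split_ifs with h
  · refine ⟨by exact_mod_cast le_max_left _ _, ?_, fun _ => h.1⟩
    have h1 : lamV v s ≤ K := (card_filter_le _ _).trans (by simp)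
    have : max 1 (lamV v s) ≤ K + 1 := by omega
    exact_mod_cast this
  · exact ⟨le_rfl, by linarith [(Nat.cast_nonneg K : (0:ℝ) ≤ K)], fun h => absurd h (lt_irrefl 1)⟩

/-- Every set of at most `K` primes with levels at most `k` has a profile. -/
lemma exists_profile {T K k : ℕ} {S : Finset ℕ} (hK : S.card ≤ K) (hk : topS S = k) :
    ∃ v : Fin K → Fin (k + 1), ∀ s, T < s → lamV v s = lamS S s := by
  let e := S.equivFin.symm
  have hle : ∀ q ∈ S, kap q ≤ k := fun q hq => hk ▸ le_sup (f := kap) hq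
  refine ⟨fun j => if h : (j : ℕ) < S.card then ⟨kap (e ⟨j, h⟩), Nat.lt_succ_of_le (hle _ (e ⟨j, h⟩).2)⟩
    else 0, fun s hs => ?_⟩
  unfold lamV lamS
  symm
  refine card_bij (fun q hq => Fin.castLE hK (S.equivFin ⟨q, (mem_filter.1 hq).1⟩)) ?_ ?_ ?_
  · intro q hq
    simp only [mem_filter, mem_univ, true_and]
    have hlt : ((Fin.castLE hK (S.equivFin ⟨q, (mem_filter.1 hq).1⟩) : Fin K) : ℕ) < S.card :=
      (S.equivFin ⟨q, (mem_filter.1 hq).1⟩).2
    rw [dif_pos hlt]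
    simp only [e]
    simpa using (mem_filter.1 hq).2
  · intro q hq q' hq' h
    simpa using h
  · intro j hj
    simp only [mem_filter, mem_univ, true_and] at hj
    by_cases hlt : (j : ℕ) < S.card
    · rw [dif_pos hlt] at hj
      exact ⟨_, mem_filter.2 ⟨(e ⟨j, hlt⟩).2, hj⟩, by simp [e]⟩
    · rw [dif_neg hlt] at hj
      simp at hj
      omega

lemma wt_ge_one {z : ℕ → ℝ} (hz : ∀ p, 1 ≤ z p) (n : ℕ) : 1 ≤ wt z n := by
  unfold wt
  induction n.primeFactorsList with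
  | nil => simp
  | cons p l ih =>
    rw [List.map_cons, List.prod_cons]
    exact one_le_mul_of_one_le_of_one_le (hz p) ih

lemma wt_mono {z : ℕ → ℝ} (hz : ∀ p, 1 ≤ z p) {a n : ℕ} (h : a ∣ n) (hn : n ≠ 0) :
    wt z a ≤ wt z n := by
  obtain ⟨b, rfl⟩ := h
  rw [wt_mul z (left_ne_zero_of_mul hn) (right_ne_zero_of_mul hn)]
  exact le_mul_of_one_le_right (le_trans zero_le_one (wt_ge_one hz a)) (wt_ge_one hz b)

lemma exp_sum_primeFactors_le_wt {z : ℕ → ℝ} (hz : ∀ p, 1 ≤ z p) {n : ℕ} (hn : n ≠ 0) :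
    Real.exp (∑ p ∈ n.primeFactors, Real.log (z p)) ≤ wt z n := by
  have hz0 : ∀ p, 0 < z p := fun p => lt_of_lt_of_le one_pos (hz p)
  rw [Real.exp_sum]
  conv_rhs => rw [← Nat.prod_factorization_pow_eq_self hn]
  rw [Finsupp.prod, Nat.support_factorization,
    wt_prod z _ _ (fun p hp => pow_ne_zero _ (Nat.prime_of_mem_primeFactors hp).ne_zero)]
  refine prod_le_prod (fun p _ => (Real.exp_pos _).le) fun p hp => ?_
  rw [Real.exp_log (hz0 p), wt_pow z (Nat.prime_of_mem_primeFactors hp)]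
  exact le_self_pow₀ (hz p) (Finsupp.mem_support_iff.1 (by rwa [Nat.support_factorization]))

lemma log_nat_eq_sum (n : ℕ) (hn : 1 ≤ n) :
    Real.log n = ∑ j ∈ Ico 1 n, (Real.log ((j : ℝ) + 1) - Real.log j) := by
  have h : ∀ j : ℕ, Real.log ((j : ℝ) + 1) = Real.log ((j + 1 : ℕ) : ℝ) := fun j => by push_cast; rfl
  simp_rw [h]
  rw [sum_Ico_eq_sub _ hn, sum_range_sub (fun j : ℕ => Real.log (j : ℝ))]
  simp

/-- Normality, read through a decreasing weight: one prime. -/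
lemma normal_sum {T K k q : ℕ} (lam : ℕ → ℕ) (hanti : Antitone lam) (hlam : ∀ s, lam s ≤ K)
    (hq : Normal q) (hqk : kap q ≤ k) :
    (∑ s ∈ Ioc T (kap q), Real.log ((max 1 (lam s) : ℕ) : ℝ)) -
        Real.log ((K : ℝ) + 1) * (k : ℝ) ^ ((4 : ℝ) / 5) ≤
      ∑ p ∈ (q - 1).primeFactors,
        (if T < kap p ∧ kap p ≤ k then Real.log ((max 1 (lam (kap p)) : ℕ) : ℝ) else 0) := by
  set d : ℕ → ℝ := fun j => Real.log ((j : ℝ) + 1) - Real.log j with hd
  have hd0 : ∀ j ∈ Ico 1 (K + 1), 0 ≤ d j := by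
    intro j hj
    have : (0 : ℝ) < j := by exact_mod_cast (mem_Ico.1 hj).1
    simp only [hd, sub_nonneg]
    exact Real.log_le_log this (by linarith)
  have layer : ∀ s, Real.log ((max 1 (lam s) : ℕ) : ℝ) =
      ∑ j ∈ Ico 1 (K + 1), if j < lam s then d j else 0 := by
    intro s
    rw [log_nat_eq_sum _ (le_max_left _ _), ← sum_filter]
    refine sum_congr ?_ fun _ _ => rfl
    ext j
    have := hlam s
    simp only [mem_Ico, mem_filter]
    omega
  have main : ∀ j, ((((Ioc T (kap q)).filter fun s => j < lam s).card : ℝ) - (k : ℝ) ^ ((4 : ℝ) / 5)) ≤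
      (((q - 1).primeFactors.filter fun p => (T < kap p ∧ kap p ≤ k) ∧ j < lam (kap p)).card : ℝ) := by
    intro j
    set A := (Ioc T (kap q)).filter fun s => j < lam s with hA
    rcases eq_empty_or_nonempty A with h0 | hne
    · rw [h0]
      simp only [card_empty, Nat.cast_zero, zero_sub]
      exact le_trans (neg_nonpos.2 (by positivity)) (Nat.cast_nonneg _)
    set b := A.max' hne
    have hb := A.max'_mem hne
    simp only [hA, mem_filter, mem_Ioc] at hb
    have hAe : A = Ioc T b := by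
      ext s
      simp only [mem_Ioc]
      constructor
      · intro hs
        exact ⟨(mem_Ioc.1 (mem_filter.1 hs).1).1, le_max' A s hs⟩
      · intro hs
        exact mem_filter.2 ⟨mem_Ioc.2 ⟨hs.1, hs.2.trans hb.1.2⟩,
          lt_of_lt_of_le hb.2 (hanti hs.2)⟩
    have h1 := (abs_le.1 (hq.2.2 T b hb.1.1 hb.1.2)).1
    have h2 : (kap q : ℝ) ^ ((4 : ℝ) / 5) ≤ (k : ℝ) ^ ((4 : ℝ) / 5) :=
      Real.rpow_le_rpow (Nat.cast_nonneg _) (by exact_mod_cast hqk) (by norm_num)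
    have h3 : (omI T b (q - 1) : ℝ) ≤
        (((q - 1).primeFactors.filter fun p => (T < kap p ∧ kap p ≤ k) ∧ j < lam (kap p)).card : ℝ) := by
      refine Nat.cast_le.2 (card_le_card fun p hp => ?_)
      simp only [mem_filter] at hp ⊢
      exact ⟨hp.1, ⟨hp.2.1, hp.2.2.trans (hb.1.2.trans hqk)⟩, lt_of_lt_of_le hb.2 (hanti hp.2.2)⟩
    rw [hAe, Nat.card_Ioc, Nat.cast_sub hb.1.1.le]
    linarith
  have hR : ∀ p, (if T < kap p ∧ kap p ≤ k then Real.log ((max 1 (lam (kap p)) : ℕ) : ℝ) else 0) =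
      ∑ j ∈ Ico 1 (K + 1), if (T < kap p ∧ kap p ≤ k) ∧ j < lam (kap p) then d j else 0 := by
    intro p
    by_cases h : T < kap p ∧ kap p ≤ k
    · rw [if_pos h, layer]
      exact sum_congr rfl fun j _ => by simp [h]
    · simp [h]
  simp_rw [hR, layer]
  rw [sum_comm, sum_comm (s := (q - 1).primeFactors)]
  have hlog : Real.log ((K : ℝ) + 1) = ∑ j ∈ Ico 1 (K + 1), d j := by
    have := log_nat_eq_sum (K + 1) (Nat.le_add_left 1 K)
    push_cast at this
    exact this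
  rw [hlog, sum_mul, ← sum_sub_distrib]
  refine sum_le_sum fun j hj => ?_
  rw [← sum_filter, ← sum_filter, sum_const, sum_const, nsmul_eq_mul, nsmul_eq_mul]
  have := mul_le_mul_of_nonneg_right (main j) (hd0 j hj)
  linarith

/-- The weight of an integer carrying a budget. -/
lemma budget_le_wt {T K k : ℕ} {S : Finset ℕ} {m : ℕ} (v : Fin K → Fin (k + 1))
    (hv : ∀ s, T < s → lamV v s = lamS S s) (hn : ∀ q ∈ S, Normal q) (hK : S.card ≤ K)
    (hk : topS S = k) (hTk : T < k) (hd : shiftProd S ∣ m) (hm : 0 < m) :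
    Real.exp (budS T S + (∑ s ∈ Ioc T k, zV T v s) - ((k : ℝ) - T) -
        K * (Real.log ((K : ℝ) + 1) * (k : ℝ) ^ ((4 : ℝ) / 5))) ≤
      wt (fun p => zV T v (kap p)) m := by
  have hz : ∀ p : ℕ, 1 ≤ zV T v (kap p) := fun p => (zV_bounds T v _).1
  refine le_trans ?_ (wt_mono hz hd hm.ne')
  have hq0 : ∀ q ∈ S, q - 1 ≠ 0 := fun q hq => by have := (hn q hq).1.two_le; omega
  rw [shiftProd, wt_prod _ _ _ hq0]
  refine le_trans ?_ (prod_le_prod (fun q _ => (Real.exp_pos _).le)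
    fun q hq => exp_sum_primeFactors_le_wt hz (hq0 q hq))
  rw [← Real.exp_sum]
  refine Real.exp_le_exp.2 ?_
  set lam : ℕ → ℕ := lamS S with hlam
  have hanti : Antitone lam := fun a b hab => card_le_card fun q hq => by
    simp only [mem_filter] at hq ⊢
    exact ⟨hq.1, hab.trans hq.2⟩
  have hzlam : ∀ s, T < s → s ≤ k → zV T v s = ((max 1 (lam s) : ℕ) : ℝ) := fun s h1 h2 => by
    rw [zV, if_pos ⟨h1, h2⟩, hv s h1]
  have hz' : ∀ p, Real.log (zV T v (kap p)) =
      (if T < kap p ∧ kap p ≤ k then Real.log ((max 1 (lam (kap p)) : ℕ) : ℝ) else 0) := fun p => by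
    by_cases h : T < kap p ∧ kap p ≤ k
    · rw [hzlam _ h.1 h.2, if_pos h]
    · rw [if_neg h, zV, if_neg h, Real.log_one]
  simp_rw [hz']
  have hle : ∀ q ∈ S, kap q ≤ k := fun q hq => hk ▸ le_sup (f := kap) hq
  refine le_trans ?_ (sum_le_sum fun q hq =>
    normal_sum (T := T) lam hanti (fun s => (card_filter_le _ _).trans hK) (hn q hq) (hle q hq))
  rw [sum_sub_distrib, sum_const, nsmul_eq_mul]
  have hswap : (∑ q ∈ S, ∑ s ∈ Ioc T (kap q), Real.log ((max 1 (lam s) : ℕ) : ℝ)) =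
      ∑ s ∈ Ioc T k, (lam s : ℝ) * Real.log ((max 1 (lam s) : ℕ) : ℝ) := by
    rw [sum_comm' (t' := Ioc T k) (s' := fun s => S.filter fun q => s ≤ kap q) (fun q s => ?_)]
    · exact sum_congr rfl fun s _ => by rw [sum_const, nsmul_eq_mul]; rfl
    · simp only [mem_Ioc, mem_filter]
      exact ⟨fun ⟨hq, h1, h2⟩ => ⟨⟨hq, h2⟩, h1, h2.trans (hle q hq)⟩,
        fun ⟨⟨hq, h2⟩, h1, _⟩ => ⟨hq, h1, h2⟩⟩
  rw [hswap]
  have hpos : ∀ s ∈ Ioc T k, 1 ≤ lam s := by
    intro s hs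
    have hne : S.Nonempty := by
      rcases S.eq_empty_or_nonempty with h | h
      · simp [h, topS] at hk; omega
      · exact h
    obtain ⟨q, hq, hqe⟩ := exists_mem_eq_sup S hne kap
    exact card_pos.2 ⟨q, mem_filter.2 ⟨hq, by rw [← hqe, ← topS, hk]; exact (mem_Ioc.1 hs).2⟩⟩
  have hbud : budS T S + (∑ s ∈ Ioc T k, zV T v s) - ((k : ℝ) - T) =
      ∑ s ∈ Ioc T k, (lam s : ℝ) * Real.log ((max 1 (lam s) : ℕ) : ℝ) := by
    rw [budS, hk, ← sum_add_distrib, show ((k : ℝ) - T) = ∑ _s ∈ Ioc T k, (1 : ℝ) by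
      rw [sum_const, Nat.card_Ioc, nsmul_one, Nat.cast_sub hTk.le], ← sum_sub_distrib]
    refine sum_congr rfl fun s hs => ?_
    rw [hzlam s (mem_Ioc.1 hs).1 (mem_Ioc.1 hs).2, max_eq_right (hpos s hs), Qf, ← hlam]
    ring
  rw [hbud]
  have : (S.card : ℝ) * (Real.log ((K : ℝ) + 1) * (k : ℝ) ^ ((4 : ℝ) / 5)) ≤
      K * (Real.log ((K : ℝ) + 1) * (k : ℝ) ^ ((4 : ℝ) / 5)) :=
    mul_le_mul_of_nonneg_right (by exact_mod_cast hK)
      (mul_nonneg (Real.log_nonneg (by linarith [(Nat.cast_nonneg K : (0:ℝ) ≤ K)])) (by positivity))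
  linarith

/-- The sum of the weights over levels `0, …, u`. -/
lemma sum_zV {T K k u : ℕ} (v : Fin K → Fin (k + 1)) (hTk : T < k) (hku : k ≤ u) :
    ∑ s ∈ range (u + 1), zV T v s =
      ((u : ℝ) + 1) + ((∑ s ∈ Ioc T k, zV T v s) - ((k : ℝ) - T)) := by
  have h1 : (∑ s ∈ Ioc T k, zV T v s) - ((k : ℝ) - T) = ∑ s ∈ Ioc T k, (zV T v s - 1) := by
    rw [sum_sub_distrib, sum_const, Nat.card_Ioc, nsmul_one, Nat.cast_sub hTk.le]
  have h2 : ∑ s ∈ Ioc T k, (zV T v s - 1) = ∑ s ∈ range (u + 1), (zV T v s - 1) := by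
    refine sum_subset (fun s hs => mem_range.2 (by have := (mem_Ioc.1 hs).2; omega)) fun s _ hs => ?_
    rw [zV, if_neg (by simpa [mem_Ioc] using hs), sub_self]
  rw [h1, h2, sum_sub_distrib]
  simp

/-- Grouping by profiles. -/
lemma grouping {T K k : ℕ} (hTk : T < k) (β : ℝ) (M : Finset ℕ) (g : ℕ → ℝ) (hg : ∀ m ∈ M, 0 ≤ g m)
    (hM : ∀ m ∈ M, 0 < m ∧ ∃ S : Finset ℕ, (∀ q ∈ S, Normal q) ∧ S.card ≤ K ∧
      topS S = k ∧ shiftProd S ∣ m ∧ β ≤ budS T S)
    (E : ℝ) (hE : ∀ v : Fin K → Fin (k + 1), ∑ m ∈ M, wt (fun p => zV T v (kap p)) m * g m ≤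
      Real.exp (E + ((∑ s ∈ Ioc T k, zV T v s) - ((k : ℝ) - T)))) :
    ∑ m ∈ M, g m ≤ ((k : ℝ) + 1) ^ K *
      Real.exp (E - β + K * (Real.log ((K : ℝ) + 1) * (k : ℝ) ^ ((4 : ℝ) / 5))) := by
  set err := (K : ℝ) * (Real.log ((K : ℝ) + 1) * (k : ℝ) ^ ((4 : ℝ) / 5))
  let G : (Fin K → Fin (k + 1)) → ℝ := fun v => (∑ s ∈ Ioc T k, zV T v s) - ((k : ℝ) - T)
  have hpt : ∀ m ∈ M, g m ≤ ∑ v : Fin K → Fin (k + 1),
      Real.exp (-β + err - G v) * (wt (fun p => zV T v (kap p)) m * g m) := by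
    intro m hm
    obtain ⟨hm0, S, hn, hK, hk, hd, hb⟩ := hM m hm
    obtain ⟨v, hv⟩ := exists_profile (T := T) hK hk
    refine le_trans ?_ (single_le_sum (fun v _ => mul_nonneg (Real.exp_pos _).le (mul_nonneg
      (le_trans zero_le_one (wt_ge_one (fun p => (zV_bounds T v _).1) m)) (hg m hm))) (mem_univ v))
    rw [← mul_assoc]
    refine le_mul_of_one_le_left (hg m hm) ?_
    refine le_trans ?_ (mul_le_mul_of_nonneg_left (budget_le_wt v hv hn hK hk hTk hd hm0)
      (Real.exp_pos _).le)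
    rw [← Real.exp_add]
    refine Real.one_le_exp ?_
    simp only [G, err]
    linarith
  refine le_trans (sum_le_sum hpt) ?_
  rw [sum_comm]
  refine le_trans (sum_le_sum (g := fun _ => Real.exp (E - β + err)) fun v _ => ?_) ?_
  · rw [← mul_sum]
    refine le_trans (mul_le_mul_of_nonneg_left (hE v) (Real.exp_pos _).le) (le_of_eq ?_)
    rw [← Real.exp_add]
    congr 1
    simp only [G]
    ring
  · simp

/-- The three errors are absorbed by `profErr`. -/
lemma err_le (T K k : ℕ) :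
    (K : ℝ) * Real.log ((k : ℝ) + 1) + K * (Real.log ((K : ℝ) + 1) * (k : ℝ) ^ ((4 : ℝ) / 5)) ≤
      5 * profErr T K k ∧ ((K : ℝ) + 1) ^ 2 ≤ profErr T K k ∧ (T : ℝ) + 1 ≤ profErr T K k ∧
      0 ≤ profErr T K k := by
  set a := (k : ℝ) ^ ((4 : ℝ) / 5) with ha
  have ha0 : 0 ≤ a := by positivity
  have hK0 : (0 : ℝ) ≤ K := Nat.cast_nonneg K
  have hT0 : (0 : ℝ) ≤ T := Nat.cast_nonneg T
  have hk0 : (0 : ℝ) ≤ k := Nat.cast_nonneg k
  have h1 : Real.log ((k : ℝ) + 1) ≤ 5 / 4 * (a + 1) := by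
    refine le_trans (Real.log_le_rpow_div (by positivity) (by norm_num : (0 : ℝ) < 4 / 5)) ?_
    rw [div_le_iff₀ (by norm_num)]
    have := Real.rpow_add_le_add_rpow hk0 zero_le_one (p := (4 : ℝ) / 5) (by norm_num) (by norm_num)
    rw [Real.one_rpow] at this
    linarith
  have h2 : Real.log ((K : ℝ) + 1) ≤ K := by
    linarith [Real.log_le_sub_one_of_pos (show (0 : ℝ) < (K : ℝ) + 1 by positivity)]
  have hsq : ((K : ℝ) + 1) ^ 2 ≤ ((K : ℝ) + 1) ^ 3 := pow_le_pow_right₀ (by linarith) (by norm_num)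
  have hone : (1 : ℝ) ≤ ((K : ℝ) + 1) ^ 3 := one_le_pow₀ (by linarith)
  unfold profErr
  rw [← ha]
  refine ⟨?_, ?_, ?_, by positivity⟩
  · have h3 : (K : ℝ) * (Real.log ((K : ℝ) + 1) * a) ≤ (K : ℝ) ^ 2 * a := by
      have := mul_le_mul_of_nonneg_left (mul_le_mul_of_nonneg_right h2 ha0) hK0
      linarith
    have h4 := mul_le_mul_of_nonneg_left h1 hK0
    nlinarith [mul_nonneg hK0 ha0, mul_nonneg (sq_nonneg (K : ℝ)) ha0, pow_nonneg hK0 3]
  · nlinarith
  · nlinarith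

/-- Weighted count of prime powers. -/
lemma sum_vonMangoldt_wt {z : ℕ → ℝ} {A : ℝ} (hA : 1 ≤ A) (hz : ∀ p, 1 ≤ z p ∧ z p ≤ A)
    (hq : ∀ p : ℕ, p.Prime → z p ≤ (p : ℝ) ^ ((1 : ℝ) / 4)) (N : ℕ) :
    ∑ d ∈ Ioc 0 N, ArithmeticFunction.vonMangoldt d * wt z d ≤ 40 * A * N := by
  open ArithmeticFunction in
  rcases Nat.eq_zero_or_pos N with rfl | hN
  · simp
  have hN1 : (1 : ℝ) ≤ N := by exact_mod_cast hN
  have hpt : ∀ d ∈ Ioc 0 N, ArithmeticFunction.vonMangoldt d * wt z d ≤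
      A * ArithmeticFunction.vonMangoldt d + (N : ℝ) ^ ((1 : ℝ) / 4) *
        (ArithmeticFunction.vonMangoldt d - if d.Prime then Real.log d else 0) := by
    intro d hd
    by_cases hp : d.Prime
    · rw [if_pos hp, wt_prime z hp, ArithmeticFunction.vonMangoldt_apply_prime hp, sub_self, mul_zero,
        add_zero, mul_comm A]
      exact mul_le_mul_of_nonneg_left (hz d).2 (Real.log_natCast_nonneg d)
    rw [if_neg hp, sub_zero]
    by_cases h0 : ArithmeticFunction.vonMangoldt d = 0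
    · simp [h0]
    obtain ⟨p, i, hpp, -, rfl⟩ := (isPrimePow_nat_iff d).1 (ArithmeticFunction.vonMangoldt_ne_zero_iff.1 h0)
    have hw : wt z (p ^ i) ≤ (N : ℝ) ^ ((1 : ℝ) / 4) := by
      rw [wt_pow z hpp]
      refine le_trans (pow_le_pow_left₀ (le_trans zero_le_one (hz p).1) (hq p hpp) i) ?_
      rw [← Real.rpow_natCast ((p : ℝ) ^ ((1 : ℝ) / 4)), ← Real.rpow_mul (Nat.cast_nonneg p), mul_comm,
        Real.rpow_mul (Nat.cast_nonneg p), Real.rpow_natCast]
      exact Real.rpow_le_rpow (by positivity) (by exact_mod_cast (mem_Ioc.1 hd).2) (by norm_num)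
    have hv := ArithmeticFunction.vonMangoldt_nonneg (n := p ^ i)
    have := mul_le_mul_of_nonneg_left hw hv
    have := mul_nonneg (show (0 : ℝ) ≤ A by linarith) hv
    linarith
  refine le_trans (sum_le_sum hpt) ?_
  rw [sum_add_distrib, ← mul_sum, ← mul_sum, sum_sub_distrib, ← sum_filter]
  have hψ : ∑ d ∈ Ioc 0 N, ArithmeticFunction.vonMangoldt d = Chebyshev.psi N := by
    simp [Chebyshev.psi]
  have hθ : ∑ d ∈ (Ioc 0 N).filter Nat.Prime, Real.log d = Chebyshev.theta N := by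
    simp [Chebyshev.theta]
  rw [hψ, hθ]
  have h1 := Chebyshev.psi_le_const_mul_self (show (0 : ℝ) ≤ N by linarith)
  have h2 := Chebyshev.psi_sub_theta_le hN1
  have h3 : Real.log (N : ℝ) ≤ 4 * (N : ℝ) ^ ((1 : ℝ) / 4) := by
    refine le_trans (Real.log_le_rpow_div (by linarith) (by norm_num : (0 : ℝ) < 1 / 4)) ?_
    exact le_of_eq (by ring)
  have h4 : (N : ℝ) ^ ((1 : ℝ) / 4) * (2 * √(N : ℝ) * Real.log N) ≤ 8 * N := by
    have hq0 : (0 : ℝ) ≤ (N : ℝ) ^ ((1 : ℝ) / 4) := by positivity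
    have hs : (N : ℝ) ^ ((1 : ℝ) / 4) * √(N : ℝ) * (N : ℝ) ^ ((1 : ℝ) / 4) = N := by
      rw [Real.sqrt_eq_rpow, ← Real.rpow_add (by linarith), ← Real.rpow_add (by linarith)]
      norm_num
    nlinarith [mul_le_mul_of_nonneg_left h3 (mul_nonneg hq0 (Real.sqrt_nonneg (N : ℝ)))]
  have hl4 : Real.log 4 ≤ 3 := by linarith [Real.log_le_sub_one_of_pos (show (0:ℝ) < 4 by norm_num)]
  have h5 := mul_le_mul_of_nonneg_left h1 (show (0 : ℝ) ≤ A by linarith)
  have h6 := mul_le_mul_of_nonneg_left h2 (show (0 : ℝ) ≤ (N : ℝ) ^ ((1 : ℝ) / 4) by positivity)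
  nlinarith [mul_le_mul_of_nonneg_right hA (show (0 : ℝ) ≤ N by linarith),
    mul_le_mul_of_nonneg_left hl4 (mul_nonneg (show (0:ℝ) ≤ A by linarith) (show (0 : ℝ) ≤ N by linarith))]

/-- Counting against logarithmic summing for the completely multiplicative weights. -/
lemma wt_sum_le {z : ℕ → ℝ} {A : ℝ} (hA : 1 ≤ A) (hz : ∀ p, 1 ≤ z p ∧ z p ≤ A)
    (hq : ∀ p : ℕ, p.Prime → z p ≤ (p : ℝ) ^ ((1 : ℝ) / 4)) {X : ℝ} (hX : 1 ≤ X) :
    (∑ n ∈ Icc 1 ⌊X⌋₊, wt z n) * Real.log X ≤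
      41 * A * X * ∑ n ∈ Icc 1 ⌊X⌋₊, wt z n / n := by
  set N := ⌊X⌋₊ with hN
  have hw : ∀ n, 0 ≤ wt z n := fun n => le_trans zero_le_one (wt_ge_one (fun p => (hz p).1) n)
  have hX0 : 0 < X := by linarith
  have hsplit : (∑ n ∈ Icc 1 N, wt z n) * Real.log X ≤
      X * (∑ n ∈ Icc 1 N, wt z n / n) + ∑ n ∈ Icc 1 N, wt z n * Real.log n := by
    rw [sum_mul, mul_sum, ← sum_add_distrib]
    refine sum_le_sum fun n hn => ?_
    have hn0 : (0 : ℝ) < n := by exact_mod_cast (mem_Icc.1 hn).1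
    have h := Real.log_le_sub_one_of_pos (div_pos hX0 hn0)
    rw [Real.log_div hX0.ne' hn0.ne'] at h
    calc wt z n * Real.log X ≤ wt z n * (X / n + Real.log n) :=
          mul_le_mul_of_nonneg_left (by linarith) (hw n)
      _ = _ := by ring
  have hlog : ∑ n ∈ Icc 1 N, wt z n * Real.log n ≤ 40 * A * X * ∑ n ∈ Icc 1 N, wt z n / n := by
    calc ∑ n ∈ Icc 1 N, wt z n * Real.log n
        = ∑ n ∈ Icc 1 N, ∑ d ∈ n.divisors,
            wt z (n / d) * (ArithmeticFunction.vonMangoldt d * wt z d) := by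
          refine sum_congr rfl fun n hn => ?_
          rw [← ArithmeticFunction.vonMangoldt_sum, mul_sum]
          refine sum_congr rfl fun d hd => ?_
          obtain ⟨hdn, hn0⟩ := Nat.mem_divisors.1 hd
          conv_lhs => rw [← Nat.div_mul_cancel hdn]
          rw [wt_mul z (Nat.div_pos (Nat.le_of_dvd (Nat.pos_of_ne_zero hn0) hdn)
            (Nat.pos_of_mem_divisors hd)).ne' (Nat.pos_of_mem_divisors hd).ne']
          ring
      _ ≤ ∑ m ∈ Icc 1 N, ∑ d ∈ Ioc 0 (N / m),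
            wt z m * (ArithmeticFunction.vonMangoldt d * wt z d) := by
          rw [← sum_sigma (Icc 1 N) (fun n => n.divisors)
            (fun x => wt z (x.1 / x.2) * (ArithmeticFunction.vonMangoldt x.2 * wt z x.2)),
            ← sum_sigma (Icc 1 N) (fun m => Ioc 0 (N / m))
            (fun x => wt z x.1 * (ArithmeticFunction.vonMangoldt x.2 * wt z x.2))]
          refine le_of_eq_of_le (sum_image (f := fun x : (_ : ℕ) × ℕ =>
              wt z x.1 * (ArithmeticFunction.vonMangoldt x.2 * wt z x.2))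
            (g := fun x : (_ : ℕ) × ℕ => (⟨x.1 / x.2, x.2⟩ : (_ : ℕ) × ℕ)) ?_).symm
            (sum_le_sum_of_subset_of_nonneg ?_ fun x _ _ => mul_nonneg (hw _)
              (mul_nonneg ArithmeticFunction.vonMangoldt_nonneg (hw _)))
          · rintro ⟨n, d⟩ hx ⟨n', d'⟩ hx' h
            simp only [mem_coe, mem_sigma, Nat.mem_divisors] at hx hx'
            simp only [Sigma.mk.injEq, heq_eq_eq] at h
            obtain ⟨h, rfl⟩ := h
            rw [← Nat.div_mul_cancel hx.2.1, h, Nat.div_mul_cancel hx'.2.1]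
          · intro y hy
            obtain ⟨⟨n, d⟩, hx, rfl⟩ := mem_image.1 hy
            simp only [mem_sigma, mem_Icc, Nat.mem_divisors, mem_Ioc] at hx ⊢
            have hd : 0 < d := Nat.pos_of_dvd_of_pos hx.2.1 (Nat.pos_of_ne_zero hx.2.2)
            have hq0 : 1 ≤ n / d := Nat.div_pos (Nat.le_of_dvd hx.1.1 hx.2.1) hd
            refine ⟨⟨hq0, (Nat.div_le_self n d).trans hx.1.2⟩, hd, ?_⟩
            rw [Nat.le_div_iff_mul_le hq0, Nat.mul_comm, Nat.div_mul_cancel hx.2.1]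
            exact hx.1.2
      _ ≤ _ := by
          rw [mul_sum]
          refine sum_le_sum fun m hm => ?_
          rw [← mul_sum]
          refine le_trans (mul_le_mul_of_nonneg_left (sum_vonMangoldt_wt hA hz hq (N / m)) (hw m)) ?_
          have hm0 : (0 : ℝ) < m := by exact_mod_cast (mem_Icc.1 hm).1
          have hNm : ((N / m : ℕ) : ℝ) ≤ X / m :=
            le_trans Nat.cast_div_le (div_le_div_of_nonneg_right (Nat.floor_le hX0.le) hm0.le)
          calc wt z m * (40 * A * ((N / m : ℕ) : ℝ)) ≤ wt z m * (40 * A * (X / m)) :=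
                mul_le_mul_of_nonneg_left (mul_le_mul_of_nonneg_left hNm (by positivity)) (hw m)
            _ = _ := by ring
  have hs : 0 ≤ ∑ n ∈ Icc 1 N, wt z n / n := sum_nonneg fun n _ => div_nonneg (hw n) (Nat.cast_nonneg n)
  nlinarith [mul_le_mul_of_nonneg_right hA (mul_nonneg hX0.le hs)]

end Exceed

open Exceed

/-- Smooth numbers carrying a budget have small reciprocal sum. -/
theorem exceedSum (hM : MertensStmt) : ExceedSumStmt := by
  obtain ⟨C, hC0, hE⟩ := euler_levels hM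
  refine ⟨C + 6, fun T K k _ hKT hTk β M hM' => ?_⟩
  have hg := grouping (K := K) hTk β M (fun m => (1 : ℝ) / m)
    (fun m _ => by positivity) (fun m hm => ⟨(hM' m hm).1, (hM' m hm).2.2⟩)
    (((k : ℝ) + 1) + C * ((K : ℝ) + 1) ^ 2) fun v => by
      simp_rw [mul_one_div]
      refine le_trans (hE k ((K : ℝ) + 1) (zV T v) (by simp)
        (fun s => ⟨by linarith [(zV_bounds T v s).1], (zV_bounds T v s).2.1⟩)
        (fun s hs => ?_) M fun m hm => ⟨(hM' m hm).1, (hM' m hm).2.1⟩) ?_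
      · have := (zV_bounds T v s).2.2 hs
        exact_mod_cast (show K + 1 ≤ s by omega)
      · rw [sum_zV v hTk le_rfl]
        exact le_of_eq (by ring_nf)
  refine le_trans hg ?_
  rw [← Real.exp_log (show (0 : ℝ) < (k : ℝ) + 1 by positivity), ← Real.exp_nat_mul,
    ← Real.exp_add, Real.exp_le_exp]
  obtain ⟨h1, h2, h3, -⟩ := err_le T K k
  rw [Real.exp_log (show (0 : ℝ) < (k : ℝ) + 1 by positivity)] at *
  have := mul_le_mul_of_nonneg_left h2 hC0
  nlinarith

/-- Integers carrying a budget are few. -/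
theorem exceedCount (hM : MertensStmt) : ExceedCountStmt := by
  obtain ⟨C, hC0, hE⟩ := euler_levels hM
  refine ⟨C + 50, fun T K k _ hKT hTk β X M hX hk hM' => ?_⟩
  set u := ⌊Real.log (Real.log X)⌋₊ with hu
  have hLX : 1 < Real.log X := by
    rw [Real.lt_log_iff_exp_lt (by linarith)]
    linarith [Real.exp_one_lt_d9]
  have hku : k ≤ u := Nat.le_floor hk
  have heu : Real.exp (u : ℝ) ≤ Real.log X := by
    rw [← Real.exp_log (show (0 : ℝ) < Real.log X by linarith)]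
    exact Real.exp_le_exp.2 (Nat.floor_le (le_trans (Nat.cast_nonneg k) hk))
  have hsub : M ⊆ Icc 1 ⌊X⌋₊ := fun m hm =>
    mem_Icc.2 ⟨(hM' m hm).1, Nat.le_floor (hM' m hm).2.1⟩
  have hsm : ∀ n ∈ Icc 1 ⌊X⌋₊, 0 < n ∧ Smooth u n := by
    intro n hn
    refine ⟨(mem_Icc.1 hn).1, fun p hp => Nat.floor_le_floor ?_⟩
    have hpp := (Nat.prime_of_mem_primeFactors hp).one_lt
    refine Real.log_le_log (Real.log_pos (by exact_mod_cast hpp)) (Real.log_le_log ?_ ?_)
    · exact_mod_cast (Nat.zero_lt_of_lt hpp)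
    · have h1 : p ≤ ⌊X⌋₊ := (Nat.le_of_mem_primeFactors hp).trans (mem_Icc.1 hn).2
      exact le_trans (by exact_mod_cast h1) (Nat.floor_le (by linarith))
  set A : ℝ := (K : ℝ) + 1 with hA
  have hA1 : 1 ≤ A := by simp [hA]
  have hg := grouping (K := K) hTk β M (fun _ => (1 : ℝ))
    (fun m _ => by norm_num) (fun m hm => ⟨(hM' m hm).1, (hM' m hm).2.2⟩)
    (Real.log (41 * A * X) + 1 + C * A ^ 2) fun v => by
      simp_rw [mul_one]
      have hz : ∀ p : ℕ, 1 ≤ zV T v (kap p) ∧ zV T v (kap p) ≤ A :=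
        fun p => ⟨(zV_bounds T v _).1, (zV_bounds T v _).2.1⟩
      have hq : ∀ p : ℕ, p.Prime → zV T v (kap p) ≤ (p : ℝ) ^ ((1 : ℝ) / 4) := by
        intro p hp
        rcases le_or_gt (zV T v (kap p)) 1 with h | h
        · exact h.trans (Real.one_le_rpow (by exact_mod_cast hp.one_le) (by norm_num))
        have hT := (zV_bounds T v _).2.2 h
        have hs : K + 1 ≤ kap p := by omega
        have h1 := exp_exp_le (Nat.le_add_left 1 K) hs
        push_cast at h1
        have h2 : Real.exp (Real.exp A * (1 / 4)) ≤ (p : ℝ) ^ ((1 : ℝ) / 4) := by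
          rw [Real.exp_mul]
          exact Real.rpow_le_rpow (Real.exp_pos _).le h1 (by norm_num)
        refine (hz p).2.trans (le_trans ?_ h2)
        have h3 := Real.quadratic_le_exp_of_nonneg (show (0 : ℝ) ≤ A by linarith)
        have h4 := Real.add_one_le_exp (Real.exp A * (1 / 4))
        nlinarith [sq_nonneg (A - 3)]
      have hw := wt_sum_le hA1 hz hq (show 1 ≤ X by linarith)
      have he := hE u A (zV T v) hA1
        (fun s => ⟨by linarith [(zV_bounds T v s).1], (zV_bounds T v s).2.1⟩)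
        (fun s hs => by
          have := (zV_bounds T v s).2.2 hs
          rw [hA]; exact_mod_cast (show K + 1 ≤ s by omega)) _ hsm
      rw [sum_zV v hTk hku] at he
      set G := (∑ s ∈ Ioc T k, zV T v s) - ((k : ℝ) - T)
      have hpos : 0 < 41 * A * X := by positivity
      have hsum : ∑ m ∈ M, wt (fun p => zV T v (kap p)) m ≤
          ∑ n ∈ Icc 1 ⌊X⌋₊, wt (fun p => zV T v (kap p)) n :=
        sum_le_sum_of_subset_of_nonneg hsub fun n _ _ =>
          le_trans zero_le_one (wt_ge_one (fun p => (hz p).1) n)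
      refine hsum.trans (le_of_mul_le_mul_right (hw.trans ?_) (show (0 : ℝ) < Real.log X by linarith))
      refine le_trans (mul_le_mul_of_nonneg_left he hpos.le) ?_
      have e1 : Real.exp ((u : ℝ) + 1 + G + C * A ^ 2) = Real.exp u * Real.exp (1 + C * A ^ 2 + G) := by
        rw [← Real.exp_add]; ring_nf
      have e2 : Real.exp (Real.log (41 * A * X) + 1 + C * A ^ 2 + G) =
          (41 * A * X) * Real.exp (1 + C * A ^ 2 + G) := by
        conv_rhs => rw [← Real.exp_log hpos]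
        rw [← Real.exp_add]; ring_nf
      rw [e1, e2]
      have := mul_le_mul_of_nonneg_left (mul_le_mul_of_nonneg_right heu (Real.exp_pos (1 + C * A ^ 2 + G)).le)
        hpos.le
      linarith
  rw [sum_const, nsmul_one] at hg
  refine le_trans hg ?_
  have hX0 : 0 < X := by linarith
  have hk1 : (0 : ℝ) < (k : ℝ) + 1 := by positivity
  conv_rhs => rw [← Real.exp_log hX0]
  conv_lhs => rw [← Real.exp_log hk1]
  rw [← Real.exp_nat_mul, ← Real.exp_add, ← Real.exp_add, Real.exp_le_exp,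
    Real.log_mul (by positivity) hX0.ne']
  obtain ⟨h1, h2, h3, h4⟩ := err_le T K k
  have h5 : Real.log (41 * A) ≤ 41 * A := by
    linarith [Real.log_le_sub_one_of_pos (show (0 : ℝ) < 41 * A by positivity)]
  have h6 : A ≤ profErr T K k := le_trans (by nlinarith) h2
  have := mul_le_mul_of_nonneg_left h2 hC0
  nlinarith

end Vale.Agent.P031
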