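import Mathlib

/-!
# Distinct values of Euler's totient: definitions

`kap q = ⌊log log q⌋` is the level of a prime. `Qf t = t log t - t + 1` is the large deviation
cost of having `t` times the usual number of prime factors at a level.
-/

open Finset

namespace Vale.Agent.P031

/-- The number of totient values in `[1, x]`. -/
noncomputable def Vcount (x : ℝ) : ℕ :=
  Set.ncard {v : ℕ | (∃ n : ℕ, 0 < n ∧ n.totient = v) ∧ (v : ℝ) ≤ x}

/-- The level of a natural number. -/
noncomputable def kap (q : ℕ) : ℕ := ⌊Real.log (Real.log (q : ℝ))⌋₊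

/-- The primes of level `k`. -/
noncomputable def cell (k : ℕ) : Finset ℕ :=
  (Finset.range (⌊Real.exp (Real.exp ((k : ℝ) + 1))⌋₊ + 1)).filter
    (fun p => p.Prime ∧ kap p = k)

/-- Number of distinct prime factors with level in `(a, b]`. -/
noncomputable def omI (a b n : ℕ) : ℕ :=
  (n.primeFactors.filter (fun r => a < kap r ∧ kap r ≤ b)).card

/-- Number of prime factors with multiplicity. -/
def bigOm (n : ℕ) : ℕ := n.primeFactorsList.length

/-- A prime whose predecessor has the usual number of prime factors on every range of levels. -/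
def Normal (q : ℕ) : Prop :=
  q.Prime ∧ bigOm (q - 1) ≤ 20 * (kap q + 1) ∧
    ∀ a b : ℕ, a < b → b ≤ kap q →
      |(omI a b (q - 1) : ℝ) - ((b : ℝ) - a)| ≤ (kap q : ℝ) ^ ((4 : ℝ) / 5)

/-- Large deviation cost. -/
noncomputable def Qf (t : ℕ) : ℝ := (t : ℝ) * Real.log t - t + 1

/-- Number of elements of a finite set of primes at level at least `s`. -/
noncomputable def lamS (S : Finset ℕ) (s : ℕ) : ℕ := (S.filter (fun q => s ≤ kap q)).card

/-- The largest level in a finite set. -/
noncomputable def topS (S : Finset ℕ) : ℕ := S.sup kap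

/-- The budget of a finite set of primes, measured above level `T`. -/
noncomputable def budS (T : ℕ) (S : Finset ℕ) : ℝ :=
  ∑ s ∈ Finset.Ioc T (topS S), Qf (lamS S s)

/-- The product of `q - 1`. -/
def shiftProd (S : Finset ℕ) : ℕ := ∏ q ∈ S, (q - 1)

/-- All prime factors have level at most `T`. -/
def Smooth (T n : ℕ) : Prop := ∀ p ∈ n.primeFactors, kap p ≤ T

/-- No square of a prime of level above `T` divides `n`. -/
def RoughSqfree (T n : ℕ) : Prop := ∀ p : ℕ, p.Prime → T < kap p → ¬ p * p ∣ n

/-- Totient of a number all of whose prime factors have level at most `u`. -/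
def IsTotUpTo (u m : ℕ) : Prop := ∃ n : ℕ, 0 < n ∧ n.totient = m ∧ Smooth u n

/-- The budget of a list of levels in nonincreasing order, measured above `0`. -/
noncomputable def budL (l : List ℕ) : ℝ :=
  ∑ s ∈ Finset.Ioc 0 l.headI, Qf (l.countP (fun x => s ≤ x))

/-- A representation: head primes and a smooth cofactor. -/
abbrev Rep := Finset ℕ × ℕ

/-- The value of a representation. -/
def Rep.val (R : Rep) : ℕ := shiftProd R.1 * R.2

end Vale.Agent.P031
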