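import Vale.Agent.P031.Layer

/-!
# Distinct values of Euler's totient: proof of the layer statement
-/

open Finset Filter Topology

namespace Vale.Agent.P031.Layer

/-- Facts valid for large `L`. -/
theorem eventually_large :
    ∀ᶠ L : ℕ in atTop, (10 : ℝ) ^ 4 ≤ Real.log L ∧
      4000 * Real.log L ^ 6 ≤ (L : ℝ) ^ ((7 : ℝ) / 100) := by
  refine Eventually.and ((Real.tendsto_log_atTop.comp tendsto_natCast_atTop_atTop).eventually_ge_atTop _) ?_
  have h := (isLittleO_log_rpow_rpow_atTop (6 : ℝ) (show (0 : ℝ) < 7 / 100 by norm_num)).bound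
    (show (0 : ℝ) < 1 / 4000 by norm_num)
  filter_upwards [tendsto_natCast_atTop_atTop.eventually h] with L hL
  rw [show Real.log (L : ℝ) ^ (6 : ℝ) = Real.log (L : ℝ) ^ 6 from by norm_cast, norm_pow, Real.norm_eq_abs,
    Real.norm_eq_abs, abs_of_nonneg (Real.rpow_nonneg (Nat.cast_nonneg L) _)] at hL
  rw [show |Real.log (L : ℝ)| ^ 6 = Real.log (L : ℝ) ^ 6 from (Even.pow_abs (by norm_num) _)] at hL
  linarith

/-- The parameters used for scale `L`. -/
theorem par_of_large {lam : ℝ} (hlam : (10 : ℝ) ^ 4 ≤ lam) {K : ℕ} (hK : (K : ℝ) ≤ 20 * lam) :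
    Par ⌊lam ^ 6 / 4⌋₊ K (lam ^ 200) (lam ^ 6)⁻¹ := by
  have h0 : 0 < lam := lt_of_lt_of_le (by norm_num) hlam
  have h1 : (1 : ℝ) ≤ lam := le_trans (by norm_num) hlam
  have hM := Nat.floor_le (show 0 ≤ lam ^ 6 / 4 by positivity)
  have hM' := Nat.lt_floor_add_one (lam ^ 6 / 4)
  have hK1 : ((K : ℝ) + 1) ^ 2 ≤ 441 * lam ^ 2 := by
    rw [show 441 * lam ^ 2 = (21 * lam) ^ 2 by ring]
    exact pow_le_pow_left₀ (by positivity) (by linarith) 2
  have h3 : (10 : ℝ) ^ 4 * lam ^ 2 ≤ lam ^ 3 := by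
    rw [show lam ^ 3 = lam * lam ^ 2 by ring]
    exact mul_le_mul_of_nonneg_right hlam (sq_nonneg _)
  have h36 : lam ^ 3 ≤ lam ^ 6 := pow_le_pow_right₀ h1 (by norm_num)
  have h2 : (1 : ℝ) ≤ lam ^ 2 := one_le_pow₀ h1
  refine ⟨by positivity, ?_, ?_, ?_, ?_, fun x hx => ?_⟩
  · calc 4 * (lam ^ 6)⁻¹ * (⌊lam ^ 6 / 4⌋₊ : ℝ) ≤ 4 * (lam ^ 6)⁻¹ * (lam ^ 6 / 4) :=
          mul_le_mul_of_nonneg_left hM (by positivity)
      _ = 1 := by field_simp
  · have h46 : (4 : ℝ) * 10 ^ 4 * lam ^ 2 ≤ lam ^ 6 := by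
      have : (4 : ℝ) * (10 ^ 4 * lam ^ 2) ≤ lam * lam ^ 3 :=
        mul_le_mul (le_trans (by norm_num) hlam) h3 (by positivity) h0.le
      have e : lam * lam ^ 3 ≤ lam ^ 6 := by
        rw [show lam * lam ^ 3 = lam ^ 4 by ring]; exact pow_le_pow_right₀ h1 (by norm_num)
      linarith
    have : 8 * ((K : ℝ) + 1) ^ 2 ≤ (⌊lam ^ 6 / 4⌋₊ : ℝ) := by linarith
    exact_mod_cast this
  · rw [← div_eq_mul_inv, div_le_one (by positivity)]
    linarith
  · have : lam ^ 3 ≤ (lam ^ 6)⁻¹ * lam ^ 200 := by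
      rw [show lam ^ 200 = lam ^ 6 * lam ^ 194 by rw [← pow_add], inv_mul_cancel_left₀ (by positivity)]
      exact pow_le_pow_right₀ h1 (by norm_num)
    linarith
  · have hx0 : 0 < x := lt_of_lt_of_le (by positivity) hx
    set y := x ^ ((1 : ℝ) / 20)
    have hy : 2 * lam ^ 6 ≤ y := by
      by_contra hc
      push Not at hc
      have h20 := pow_lt_pow_left₀ hc (Real.rpow_nonneg hx0.le _) (show (20 : ℕ) ≠ 0 by norm_num)
      rw [show y ^ 20 = x from by
        simp only [y]; rw [← Real.rpow_natCast, ← Real.rpow_mul hx0.le]; norm_num] at h20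
      have : (2 * lam ^ 6) ^ 20 ≤ lam ^ 200 := by
        rw [mul_pow, ← pow_mul, show (200 : ℕ) = 80 + 120 from rfl, pow_add]
        refine mul_le_mul_of_nonneg_right ?_ (by positivity)
        calc (2 : ℝ) ^ 20 ≤ lam ^ 20 := pow_le_pow_left₀ two_pos.le (le_trans (by norm_num) hlam) _
          _ ≤ lam ^ 80 := pow_le_pow_right₀ h1 (by norm_num)
      linarith
    have e : x ^ ((19 : ℝ) / 20) * y = x := by
      simp only [y]; rw [← Real.rpow_add hx0]; norm_num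
    have hp : 0 ≤ x ^ ((19 : ℝ) / 20) := Real.rpow_nonneg hx0.le _
    have := mul_le_mul_of_nonneg_left hy hp
    rw [e] at this
    rw [inv_mul_eq_div, div_div, le_div_iff₀ (by positivity)]
    linarith

/-- One good list from a member of the layer and a new head. -/
theorem good_cons {M K L h w : ℕ} {H ε : ℝ} {u : ℕ → ℕ} (P : Par M K H ε)
    (hu : ∀ j, 1 ≤ j → j ≤ K + 1 → u j < M / j) (hH : H < (h : ℝ) + 1) (hH1 : (h : ℝ) ≤ H)
    {x z : ℕ} {y : List ℕ} (hlen : y.length + 1 ≤ K) (hp : (L :: x :: y).Pairwise (· ≥ ·))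
    (hh : ∀ v ∈ x :: y, h < v)
    (hn : ∀ t : List ℕ, t <:+ x :: y → t ≠ [] →
      budL t ≤ (t.headI : ℝ) + (t.headI : ℝ) ^ ((19 : ℝ) / 20))
    (hb : budL (L :: x :: y) ≤ (L : ℝ) + w)
    (hbig : 3 * (w : ℝ) + 2 * ((K : ℝ) + 1) ^ 2 ≤ ε * L)
    (hz1 : (1 - 2 * ε) * x ≤ (z : ℝ)) (hz2 : (z : ℝ) ≤ (1 - ε) * x) :
    GoodList L h w ε (z :: mp M u 1 y) := by
  obtain ⟨hpL, hp'⟩ := List.pairwise_cons.1 hp
  obtain ⟨hpx, hpy⟩ := List.pairwise_cons.1 hp'
  have hH' : ∀ v ∈ x :: y, H ≤ (v : ℝ) := fun v hv =>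
    hH.le.trans (by exact_mod_cast hh v hv)
  obtain ⟨g1, g2, g3⟩ := mp_good P hu y 1 le_rfl (by omega) hpy
    (fun v hv => hH' v (List.mem_cons_of_mem _ hv)) (fun t ht => hn t (ht.trans (List.suffix_cons x y)))
  obtain ⟨c1, c2⟩ := cf_mem P (le_refl 1) (show 1 ≤ K + 1 by omega)
  have hxH := hH' x (List.mem_cons_self ..)
  have hεx := mul_le_mul_of_nonneg_left hxH P.eps_pos.le
  have hlev := P.level
  have hx0 : (0 : ℝ) ≤ x := Nat.cast_nonneg x
  have hxL : (x : ℝ) ≤ L := by exact_mod_cast hpL x (List.mem_cons_self ..)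
  have hsq := sq_nonneg ((K : ℝ) + 1)
  have hzt : ∀ v ∈ mp M u 1 y, v < z := fun v hv => by
    have h1 := mp_le P hu y 1 le_rfl (by omega) hpx v hv
    have h2 := mul_le_mul_of_nonneg_right c2 hx0
    exact_mod_cast (show (v : ℝ) < z by linarith)
  have hxpos : (0 : ℝ) < x := by
    have : 0 < x := lt_of_le_of_lt (Nat.zero_le h) (hh x (List.mem_cons_self ..))
    exact_mod_cast this
  have hεp : 0 < ε * (x : ℝ) := mul_pos P.eps_pos hxpos
  have hzL : z < L := by exact_mod_cast (show (z : ℝ) < L by linarith)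
  have hpz : (z :: mp M u 1 y).Pairwise (· > ·) := List.pairwise_cons.2 ⟨hzt, g1⟩
  have hpLz : (L :: z :: mp M u 1 y).Pairwise (· > ·) := by
    refine List.pairwise_cons.2 ⟨fun v hv => ?_, hpz⟩
    rcases List.mem_cons.1 hv with rfl | hv
    · exact hzL
    · exact (hzt v hv).trans hzL
  have hlen' : (y.length : ℝ) * ((K : ℝ) + 2) ≤ 2 * ((K : ℝ) + 1) ^ 2 := by
    have : (y.length : ℝ) ≤ K := by exact_mod_cast (show y.length ≤ K by omega)
    nlinarith
  refine ⟨hpLz, fun v hv => ?_, fun t ht hne => ?_, ?_, fun v hv => ?_⟩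
  · rcases List.mem_cons.1 hv with rfl | hv
    · have : (h : ℝ) + 1 ≤ x := by exact_mod_cast hh x (List.mem_cons_self ..)
      exact_mod_cast (show (h : ℝ) < 2 * v by nlinarith [P.small])
    · exact_mod_cast (show (h : ℝ) < 2 * v by linarith [g2 v hv])
  · rcases List.suffix_cons_iff.1 ht with rfl | ht
    · rw [budL_cons (hpz.imp fun h => le_of_lt h)]
      have hb1 := hn (x :: y) List.suffix_rfl (List.cons_ne_nil _ _)
      rw [budL_cons hp'] at hb1
      simp only [List.headI_cons] at hb1 ⊢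
      have h1 := bs_mp_le P hu (c := cf M 1) y 1 1 le_rfl (by omega) le_rfl (by omega) le_rfl
      have h2 := mul_le_mul_of_nonneg_left (hb1.trans (add_le_add le_rfl (P.power x hxH)))
        (show 0 ≤ cf M 1 by linarith)
      have h3 := mul_le_mul_of_nonneg_right c2 hx0
      have h4 : cf M 1 * (ε * x / 2) ≤ ε * x / 2 :=
        mul_le_of_le_one_left (by positivity) (by linarith [P.eps_pos])
      have h5 := mul_le_mul_of_nonneg_left hz1 (show 0 ≤ 1 - ε by linarith [P.small, P.eps_pos])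
      have h7 : bs 1 (mp M u 1 y) ≤ x - 4 * (ε * x) + ε * x / 2 + 2 * ((K : ℝ) + 1) ^ 2 := by linarith
      have h8 : (x : ℝ) - 3 * (ε * x) ≤ (1 - ε) * z := by
        have : 0 ≤ ε * (ε * x) := mul_nonneg P.eps_pos.le hεp.le
        linarith
      linarith
    · exact g3 t ht hne
  · rw [budL_cons (hpLz.imp fun h => le_of_lt h), bs]
    have hb2 := hb
    rw [budL_cons hp, bs] at hb2
    have h1 := bs_mp_le P hu (c := 1 - ε) y 1 2 le_rfl (by omega) (by norm_num) (by omega)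
      (by linarith [P.eps_pos])
    have h2 := mul_le_mul_of_nonneg_left hz2 (inc_mem (le_refl 1)).1
    have h3 := mul_le_mul_of_nonneg_left hb2 (show 0 ≤ 1 - ε by linarith [P.small, P.eps_pos])
    have h4 : 0 ≤ ε * (w : ℝ) := mul_nonneg P.eps_pos.le (Nat.cast_nonneg w)
    linarith
  · have hεL : (1 - ε) * (x : ℝ) ≤ (1 - ε) * L :=
      mul_le_mul_of_nonneg_left hxL (by linarith [P.small, P.eps_pos])
    rcases List.mem_cons.1 hv with rfl | hv
    · linarith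
    · have : (v : ℝ) ≤ z := by exact_mod_cast (hzt v hv).le
      linarith

/-- Module `Layer`: the boundary layer is small. -/
theorem layer : LayerStmt := by
  classical
  obtain ⟨L₀, hL₀⟩ := eventually_atTop.1 eventually_large
  refine ⟨L₀, fun L hL K w hK hw A hA => ?_⟩
  obtain ⟨hl4, hl6⟩ := hL₀ L hL
  set lam := Real.log (L : ℝ)
  have P := par_of_large hl4 hK
  set M := ⌊lam ^ 6 / 4⌋₊
  set h := ⌊lam ^ 200⌋₊
  have heps : lam ^ (-(6 : ℝ)) = (lam ^ 6)⁻¹ := by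
    rw [Real.rpow_neg (le_trans (by norm_num) hl4)]; norm_cast
  rw [heps]
  set ε := (lam ^ 6)⁻¹
  set T := A.image List.tail with hTdef
  have hmem : ∀ y ∈ T, ∃ x, x :: y ∈ A := fun y hy => by
    obtain ⟨l, hl, rfl⟩ := mem_image.1 hy
    cases l with
    | nil => exact absurd rfl (hA.1 _ hl).1
    | cons x l => exact ⟨x, hl⟩
  have hT : ∀ y ∈ T, y.length ≤ K := fun y hy => by
    obtain ⟨x, hx⟩ := hmem y hy
    have := (hA.1 _ hx).2.1
    simp at this
    omega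
  obtain ⟨u, hu, T', hT', hok, hhalf⟩ := exists_shifts P T hT
  have hfib : A.card ≤ (2 * w + 1) * T.card := by
    refine card_le_mul_card_image A _ fun y hy => ?_
    obtain ⟨x, hx⟩ := hmem y hy
    refine (card_le_card (t := (Icc (x - w) (x + w)).image (fun v => v :: y)) fun l hl => ?_).trans
      (card_image_le.trans (by rw [Nat.card_Icc]; omega))
    obtain ⟨hlA, hly⟩ := mem_filter.1 hl
    cases l with
    | nil => exact absurd rfl (hA.1 _ hlA).1
    | cons v l =>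
      simp only [List.tail_cons] at hly
      subst hly
      have h1 := hA.2 _ hlA _ hx (by simp)
      have h2 := hA.2 _ hx _ hlA (by simp)
      simp only [List.headI_cons] at h1 h2
      exact mem_image.2 ⟨v, mem_Icc.2 ⟨by omega, by omega⟩, rfl⟩
  let rep : List ℕ → ℕ := fun y => if hy : y ∈ T then (hmem y hy).choose else 0
  have hrep : ∀ y ∈ T, rep y :: y ∈ A := fun y hy => by
    simp only [rep, dif_pos hy]; exact (hmem y hy).choose_spec
  let new : List ℕ → Finset (List ℕ) := fun y =>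
    (Icc ⌈(1 - 2 * ε) * (rep y : ℝ)⌉₊ ⌊(1 - ε) * (rep y : ℝ)⌋₊).image (fun z => z :: mp M u 1 y)
  set Good := T'.biUnion new
  have h0 : (0 : ℝ) < lam := lt_of_lt_of_le (by norm_num) hl4
  have hε : 0 < ε := P.eps_pos
  have hlam2 : lam ^ 2 ≤ lam ^ 6 := pow_le_pow_right₀ (le_trans (by norm_num) hl4) (by norm_num)
  have hLpos : (0 : ℝ) < L := by
    rcases Nat.eq_zero_or_pos L with h' | h'
    · simp [lam, h'] at h0
    · exact_mod_cast h'
  have hL1 : (1 : ℝ) ≤ L := by exact_mod_cast Nat.cast_pos.1 hLpos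
  have hp93 : (L : ℝ) ^ ((7 : ℝ) / 100) * (L : ℝ) ^ ((93 : ℝ) / 100) = L := by
    rw [← Real.rpow_add hLpos]; norm_num
  have hp91 : (L : ℝ) ^ ((91 : ℝ) / 100) * (L : ℝ) ^ ((1 : ℝ) / 50) = (L : ℝ) ^ ((93 : ℝ) / 100) := by
    rw [← Real.rpow_add hLpos]; norm_num
  have hone91 : (1 : ℝ) ≤ (L : ℝ) ^ ((91 : ℝ) / 100) := Real.one_le_rpow hL1 (by norm_num)
  have hone02 : (1 : ℝ) ≤ (L : ℝ) ^ ((1 : ℝ) / 50) := Real.one_le_rpow hL1 (by norm_num)
  have hεL : 4000 * (L : ℝ) ^ ((93 : ℝ) / 100) ≤ ε * L := by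
    simp only [ε]
    rw [inv_mul_eq_div, le_div_iff₀ (by positivity)]
    have := mul_le_mul_of_nonneg_right hl6 (Real.rpow_nonneg (Nat.cast_nonneg L) ((93 : ℝ) / 100))
    linarith
  have h9193 : (L : ℝ) ^ ((91 : ℝ) / 100) ≤ (L : ℝ) ^ ((93 : ℝ) / 100) :=
    Real.rpow_le_rpow_of_exponent_le hL1 (by norm_num)
  have hbig : 3 * (w : ℝ) + 2 * ((K : ℝ) + 1) ^ 2 ≤ ε * L := by
    have h7 : (L : ℝ) ^ ((7 : ℝ) / 100) ≤ (L : ℝ) ^ ((93 : ℝ) / 100) :=
      Real.rpow_le_rpow_of_exponent_le hL1 (by norm_num)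
    have hK1 : ((K : ℝ) + 1) ^ 2 ≤ (21 * lam) ^ 2 := pow_le_pow_left₀ (by positivity) (by linarith) 2
    linarith
  have hgood : ∀ l ∈ Good, l.length ≤ K ∧ GoodList L h w ε l := fun l hl => by
    obtain ⟨y, hy, hl⟩ := mem_biUnion.1 hl
    obtain ⟨z, hz, rfl⟩ := mem_image.1 hl
    obtain ⟨a1, a2, a3, a4, a5, a6, a7⟩ := hA.1 _ (hrep y (hT' hy))
    obtain ⟨b1, b2⟩ := mem_Icc.1 hz
    simp only [List.length_cons] at a2 ⊢
    refine ⟨by rw [length_mp]; omega, good_cons P hu (Nat.lt_floor_add_one _) (Nat.floor_le (by positivity))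
      (by omega) a3 a4 a5 a7 hbig (Nat.ceil_le.1 b1) ?_⟩
    exact (Nat.le_floor_iff (mul_nonneg (by linarith [P.small]) (Nat.cast_nonneg _))).1 b2
  have hnew : ∀ y ∈ T', ε * L / 200 ≤ ((new y).card : ℝ) := fun y hy => by
    obtain ⟨-, -, -, -, -, a6, -⟩ := hA.1 _ (hrep y (hT' hy))
    simp only [List.headI_cons] at a6
    have hx : (L : ℝ) ≤ 100 * (rep y : ℝ) := by exact_mod_cast a6
    have hεx := mul_le_mul_of_nonneg_left hx hε.le
    rw [card_image_of_injective _ (fun a b hab => (List.cons.injEq .. ▸ hab : a = b ∧ _).1), Nat.card_Icc]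
    have hc := Nat.ceil_lt_add_one (show 0 ≤ (1 - 2 * ε) * (rep y : ℝ) from
      mul_nonneg (by linarith [P.small]) (Nat.cast_nonneg _))
    have hf := Nat.lt_floor_add_one ((1 - ε) * (rep y : ℝ))
    have hs : ((⌊(1 - ε) * (rep y : ℝ)⌋₊ + 1 : ℕ) : ℝ) - (⌈(1 - 2 * ε) * (rep y : ℝ)⌉₊ : ℝ)
        ≤ ((⌊(1 - ε) * (rep y : ℝ)⌋₊ + 1 - ⌈(1 - 2 * ε) * (rep y : ℝ)⌉₊ : ℕ) : ℝ) := by
      rcases le_total ⌈(1 - 2 * ε) * (rep y : ℝ)⌉₊ (⌊(1 - ε) * (rep y : ℝ)⌋₊ + 1) with hle | hle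
      · rw [Nat.cast_sub hle]
      · rw [Nat.sub_eq_zero_of_le hle, Nat.cast_zero, sub_nonpos]; exact_mod_cast hle
    push_cast at hs
    linarith
  have hcard : (T'.card : ℝ) * (ε * L / 200) ≤ Good.card := by
    rw [show Good.card = ∑ y ∈ T', (new y).card from card_biUnion fun y hy y' hy' hne => by
      refine Finset.disjoint_left.2 fun l h1 h2 => hne ?_
      obtain ⟨z, -, rfl⟩ := mem_image.1 h1
      obtain ⟨z', -, he⟩ := mem_image.1 h2
      simp only [List.cons.injEq] at he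
      exact (mp_inj P hu y' y 1 le_rfl (by have := hT y' (hT' hy'); omega) (hok y' hy') (hok y hy) he.2).symm]
    push_cast
    simpa using card_nsmul_le_sum T' (fun y => ((new y).card : ℝ)) _ hnew
  refine ⟨Good, hgood, ?_⟩
  have hA' : (A.card : ℝ) ≤ (2 * (w : ℝ) + 1) * (2 * T'.card) := by
    exact_mod_cast hfib.trans (Nat.mul_le_mul_left _ hhalf)
  have h1 := mul_le_mul_of_nonneg_right hA' (le_trans zero_le_one hone02)
  have h2 : (2 * (w : ℝ) + 1) * 2 * (L : ℝ) ^ ((1 : ℝ) / 50) ≤ ε * L / 200 := by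
    have := mul_le_mul_of_nonneg_right (show (2 * (w : ℝ) + 1) * 2 ≤ 6 * (L : ℝ) ^ ((91 : ℝ) / 100) by linarith)
      (le_trans zero_le_one hone02)
    rw [mul_assoc 6, hp91] at this
    linarith
  have h3 := mul_le_mul_of_nonneg_left h2 (Nat.cast_nonneg T'.card (α := ℝ))
  linarith

end Vale.Agent.P031.Layer
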