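import Vale.Agent.P031.NormalityParts

/-!
# Abnormal primes are rare

Three ways to be abnormal: too few divisors of `q - 1` in a range of levels (thinning), too many
(moments below the top levels, where few primes fit), or too many prime factors altogether.
-/

open Finset Filter
open scoped Classical

namespace Vale.Agent.P031

namespace Normality

/-- Abnormal primes of one level up to `Y`. -/
noncomputable def abn (k : ℕ) (Y : ℝ) : Finset ℕ :=
  (cell k).filter (fun q : ℕ => (q : ℝ) ≤ Y ∧ ¬ Normal q)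

lemma primeFactors_pred {q r : ℕ} (hr : r ∈ (q - 1).primeFactors) :
    r.Prime ∧ r ∣ q - 1 ∧ kap r ≤ kap q ∧ 2 ≤ q := by
  obtain ⟨hp, hd, hne⟩ := Nat.mem_primeFactors.1 hr
  refine ⟨hp, hd, Crude.kap_mono hp.two_le
    ((Nat.le_of_dvd (Nat.pos_of_ne_zero hne) hd).trans (Nat.sub_le q 1)), by omega⟩

/-- The main parameters, for large levels. -/
structure Large (k : ℕ) (R : ℝ) : Prop where
  hk : (1024 : ℝ) ≤ k
  hw : (32 : ℝ) ≤ (k : ℝ) ^ ((7 : ℝ) / 10)
  hwu : 5 * (k : ℝ) ^ ((7 : ℝ) / 10) ≤ (k : ℝ) ^ ((4 : ℝ) / 5)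
  hRu : 10 * R ≤ (k : ℝ) ^ ((4 : ℝ) / 5)
  huk : (k : ℝ) ^ ((4 : ℝ) / 5) ≤ k
  hRk : 4 * R ≤ (k : ℝ)

lemma large_eventually (R : ℝ) : ∀ᶠ k : ℕ in atTop, Large k R := by
  have t : ∀ {a : ℝ}, 0 < a → Tendsto (fun k : ℕ => (k : ℝ) ^ a) atTop atTop := fun ha =>
    (tendsto_rpow_atTop ha).comp tendsto_natCast_atTop_atTop
  filter_upwards [tendsto_natCast_atTop_atTop.eventually_ge_atTop (max 1024 (4 * R)),
    (t (show (0 : ℝ) < 7 / 10 by norm_num)).eventually_ge_atTop 32,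
    (t (show (0 : ℝ) < 1 / 10 by norm_num)).eventually_ge_atTop 5,
    (t (show (0 : ℝ) < 4 / 5 by norm_num)).eventually_ge_atTop (10 * R)] with k h0 h1 h2 h3
  have hk1 : (1 : ℝ) ≤ k := by linarith [le_max_left (1024 : ℝ) (4 * R)]
  refine ⟨le_of_max_le_left h0, h1, ?_, h3, ?_, le_of_max_le_right h0⟩
  · calc 5 * (k : ℝ) ^ ((7 : ℝ) / 10)
        ≤ (k : ℝ) ^ ((1 : ℝ) / 10) * (k : ℝ) ^ ((7 : ℝ) / 10) :=
          mul_le_mul_of_nonneg_right h2 (by positivity)
      _ = (k : ℝ) ^ ((4 : ℝ) / 5) := by rw [← Real.rpow_add (by linarith)]; norm_num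
  · calc (k : ℝ) ^ ((4 : ℝ) / 5) ≤ (k : ℝ) ^ (1 : ℝ) :=
          Real.rpow_le_rpow_of_exponent_le hk1 (by norm_num)
      _ = k := Real.rpow_one _

/-- The decay. -/
noncomputable def dec (k : ℕ) : ℝ := Real.exp (-(1 / 128 : ℝ) * (k : ℝ) ^ ((1 : ℝ) / 2))

lemma omI_eq (a b n : ℕ) : omI a b n = (n.primeFactors.filter
    (fun r => a < kap r ∧ kap r ≤ b)).card := rfl

/-- Too few divisors in a range of levels. -/
lemma deficit {C C₀ : ℝ} (hC : ∀ k : ℕ, |(∑ p ∈ cell k, (1 : ℝ) / p) - 1| ≤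
      C * Real.exp (-(k : ℝ))) (hC₀ : 0 ≤ C₀)
    (hsieve : ∀ (Y : ℝ), 2 ≤ Y → ∀ S : Finset ℕ, (∀ r ∈ S, r.Prime ∧ 3 ≤ r ∧ (r : ℝ) ≤ Y) →
      (((Icc 2 ⌊Y⌋₊).filter (fun q => q.Prime ∧ ∀ r ∈ S, ¬ r ∣ q - 1)).card : ℝ) ≤
        C₀ * Y / Real.log Y * Real.exp (-∑ r ∈ S, (1 : ℝ) / r))
    {k a b : ℕ} (hlarge : Large k (10 + 4 * |C|)) (_hab : a < b) (hbk : b ≤ k) {Y : ℝ}
    (hY : Real.exp (Real.exp (k : ℝ)) ≤ Y) :
    (((cell k).filter (fun q : ℕ => (q : ℝ) ≤ Y ∧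
      (omI a b (q - 1) : ℝ) < (b : ℝ) - a - (k : ℝ) ^ ((4 : ℝ) / 5))).card : ℝ) ≤
      C₀ * Real.exp (10 + 4 * |C|) * (Y / Real.log Y) * dec k := by
  set u : ℝ := (k : ℝ) ^ ((4 : ℝ) / 5) with hu
  have hk0 : (0 : ℝ) < k := by linarith [hlarge.hk]
  have hk1 : 1 ≤ k := by exact_mod_cast (show (1 : ℝ) ≤ k by linarith [hlarge.hk])
  have hY2 : 2 ≤ Y := by
    have h1 := Real.add_one_le_exp (Real.exp (k : ℝ))
    have h2 := Real.one_le_exp hk0.le
    linarith
  set S := Crude.band a (min b (k - 1))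
  have hS : ∀ r ∈ S, r.Prime ∧ 3 ≤ r ∧ (r : ℝ) ≤ Y := by
    intro r hr
    obtain ⟨hp, h1, h2⟩ := Crude.mem_band.1 hr
    refine ⟨hp, three_le (by omega), ((le_of_kap hp (k := k - 1) (h2.trans (min_le_right _ _))).2).trans
      (le_trans (le_of_eq ?_) hY)⟩
    rw [Nat.cast_sub hk1]
    norm_num
  set t : ℝ := u / (2 * k) with ht
  have hu0 : 0 ≤ u := by positivity
  have ht0 : 0 ≤ t := by positivity
  have ht1 : t ≤ 1 := by
    rw [ht, div_le_one (by positivity)]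
    linarith [hlarge.huk]
  have hX : (b : ℝ) - a - 1 - 2 * |C| ≤ ∑ r ∈ S, (1 : ℝ) / r := by
    have h := (abs_le.1 (band_mass_sharp hC a (min b (k - 1)))).1
    have h2 : (b : ℝ) ≤ (((min b (k - 1) - a : ℕ)) : ℝ) + a + 1 := by
      exact_mod_cast (show b ≤ (min b (k - 1) - a) + a + 1 by omega)
    linarith
  have h := few_hits hC₀ hY2 (hsieve Y hY2) S hS (m := (b : ℝ) - a - u) ht0 ht1 hX
  refine le_trans ?_ (h.trans ?_)
  · refine Nat.cast_le.2 (card_le_card fun q hq => ?_)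
    obtain ⟨hq, hqY, hlt⟩ := mem_filter.1 hq
    have hqp := (mem_cell.1 hq).1
    refine mem_filter.2 ⟨(mem_primesUpTo (by linarith)).2 ⟨hqp, hqY⟩, le_trans ?_ hlt.le⟩
    refine Nat.cast_le.2 (card_le_card fun r hr => ?_)
    obtain ⟨hr1, hr2⟩ := mem_filter.1 hr
    obtain ⟨hp, h1, h2⟩ := Crude.mem_band.1 hr1
    refine mem_filter.2 ⟨Nat.mem_primeFactors.2 ⟨hp, hr2, ?_⟩, h1, h2.trans (min_le_left _ _)⟩
    have := hqp.two_le
    omega
  · rw [dec, mul_div_assoc, mul_assoc C₀ (Real.exp _), mul_comm (Real.exp (10 + 4 * |C|)),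
      ← mul_assoc, mul_assoc _ (Real.exp _) (Real.exp _), ← Real.exp_add]
    refine mul_le_mul_of_nonneg_left (Real.exp_le_exp.2 ?_) ?_
    swap
    · exact mul_nonneg hC₀ (div_nonneg (by linarith) (Real.log_nonneg (by linarith)))
    have hba : (b : ℝ) - a ≤ k := by
      have h1 : (b : ℝ) ≤ k := by exact_mod_cast hbk
      linarith [show (0 : ℝ) ≤ a from Nat.cast_nonneg a]
    have htu : t * u = 2 * k * t ^ 2 := by
      rw [ht]; field_simp
    have h1 := mul_le_mul_of_nonneg_left hba (sq_nonneg t)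
    have h2 : t * (1 + 2 * |C|) ≤ 1 + 2 * |C| :=
      mul_le_of_le_one_left (by positivity) ht1
    have h3 : (0 : ℝ) ≤ t ^ 2 * (1 + 2 * |C|) := by positivity
    have h4 : (k : ℝ) * t ^ 2 = (k : ℝ) ^ ((3 : ℝ) / 5) / 4 := by
      rw [ht, hu, div_pow, ← Real.rpow_natCast ((k : ℝ) ^ ((4 : ℝ) / 5)) 2,
        ← Real.rpow_mul hk0.le]
      rw [show (k : ℝ) ^ ((3 : ℝ) / 5) = (k : ℝ) ^ ((4 : ℝ) / 5 * (2 : ℕ)) / k by
        rw [← Real.rpow_sub_one hk0.ne']; norm_num]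
      field_simp
      norm_num
    have h5 : (k : ℝ) ^ ((1 : ℝ) / 2) ≤ (k : ℝ) ^ ((3 : ℝ) / 5) :=
      Real.rpow_le_rpow_of_exponent_le (by linarith [hlarge.hk]) (by norm_num)
    have h6 : (0 : ℝ) ≤ (k : ℝ) ^ ((1 : ℝ) / 2) := by positivity
    nlinarith [abs_nonneg C]

/-- Too many divisors in a range of levels. -/
lemma excess {C C₁ : ℝ} (hC : ∀ k : ℕ, |(∑ p ∈ cell k, (1 : ℝ) / p) - 1| ≤
      C * Real.exp (-(k : ℝ))) (hC₁ : 0 ≤ C₁)
    (hsieve : ∀ (Y : ℝ), 2 ≤ Y → ∀ d : ℕ, 0 < d →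
      (((Icc 1 ⌊Y⌋₊).filter (fun n => (d * n + 1).Prime)).card : ℝ) ≤
        C₁ * Y / Real.log Y * ((d : ℝ) / d.totient))
    {k a b : ℕ} (hlarge : Large k (10 + 4 * |C|)) (hab : a < b) (hbk : b ≤ k) {Y : ℝ}
    (hY : Real.exp (Real.exp (k : ℝ)) ≤ Y) (hY' : Y ≤ Real.exp (Real.exp ((k : ℝ) + 1))) :
    (((cell k).filter (fun q : ℕ => (q : ℝ) ≤ Y ∧
      (b : ℝ) - a + (k : ℝ) ^ ((4 : ℝ) / 5) < (omI a b (q - 1) : ℝ))).card : ℝ) ≤
      2 * C₁ * (Y / Real.log Y) * dec k := by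
  set u : ℝ := (k : ℝ) ^ ((4 : ℝ) / 5) with hu
  set w : ℝ := (k : ℝ) ^ ((7 : ℝ) / 10) with hw
  set R : ℝ := 10 + 4 * |C| with hR
  obtain ⟨hk, hw32, hwu, hRu, huk, hRk⟩ := hlarge
  rw [← hu] at hwu hRu huk
  rw [← hw] at hw32 hwu
  have hk0 : (0 : ℝ) < k := by linarith
  have hY4 : 4 ≤ Y := by
    have h1 := Real.add_one_le_exp (Real.exp (k : ℝ))
    have h2 := Real.add_one_le_exp (k : ℝ)
    linarith
  have hlY : Real.exp (k : ℝ) ≤ Real.log Y := by
    rw [← Real.log_exp (Real.exp (k : ℝ))]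
    exact Real.log_le_log (Real.exp_pos _) hY
  have hlY' : Real.log Y ≤ Real.exp ((k : ℝ) + 1) := by
    rw [← Real.log_exp (Real.exp ((k : ℝ) + 1))]
    exact Real.log_le_log (by linarith) hY'
  set h : ℕ := ⌊Real.log w⌋₊ with hh
  have hw0 : 0 < w := by linarith
  have hh1 : Real.exp (h : ℝ) ≤ w := by
    rw [← Real.exp_log hw0]
    exact Real.exp_le_exp.2 (Nat.floor_le (Real.log_nonneg (by linarith)))
  have hh2 : w ≤ Real.exp ((h : ℝ) + 1) := by
    rw [← Real.exp_log hw0]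
    exact Real.exp_le_exp.2 (Nat.lt_floor_add_one _).le
  have hhk : h ≤ k := by
    have h1 := Real.add_one_le_exp (h : ℝ)
    exact_mod_cast (show (h : ℝ) ≤ k by linarith)
  set S := Crude.band a (min b (k - h))
  set j : ℕ := ⌊w / 16⌋₊ with hj
  have hj1 : (j : ℝ) ≤ w / 16 := Nat.floor_le (by positivity)
  have hj2 : w / 32 ≤ (j : ℝ) := by
    have := Nat.lt_floor_add_one (w / 16)
    rw [← hj] at this
    linarith
  set f : ℕ → ℝ := fun r => 1 / ((r : ℝ) - 1) with hf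
  have hSp : ∀ r ∈ S, r.Prime ∧ Real.log r ≤ Real.exp ((k : ℝ) - h + 1) := by
    intro r hr
    obtain ⟨hp, -, h2⟩ := Crude.mem_band.1 hr
    refine ⟨hp, ?_⟩
    have h3 := (le_of_kap hp (k := k - h) (h2.trans (min_le_right _ _))).1
    rwa [Nat.cast_sub hhk] at h3
  have hf0 : ∀ r ∈ S, 0 ≤ f r := fun r hr => by
    have : (2 : ℝ) ≤ r := by exact_mod_cast (hSp r hr).1.two_le
    simp only [hf]
    exact div_nonneg zero_le_one (by linarith)
  set G := (cell k).filter (fun q : ℕ => (q : ℝ) ≤ Y ∧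
    (b : ℝ) - a + u < (omI a b (q - 1) : ℝ))
  have hGQ : G ⊆ primesUpTo Y := fun q hq =>
    (mem_primesUpTo (by linarith)).2 ⟨(mem_cell.1 (mem_filter.1 hq).1).1, (mem_filter.1 hq).2.1⟩
  have hB : ∀ T ∈ S.powersetCard j,
      (((primesUpTo Y).filter (fun q => Divides T (q - 1))).card : ℝ) ≤
        2 * C₁ * Y / Real.log Y * ∏ r ∈ T, f r := by
    intro T hT
    obtain ⟨hTS, hTc⟩ := mem_powersetCard.1 hT
    refine prog_count hC₁ hY4 hsieve T (fun r hr => (hSp r (hTS hr)).1) ?_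
    refine (sum_le_card_nsmul _ _ _ fun r hr => (hSp r (hTS hr)).2).trans ?_
    rw [hTc, nsmul_eq_mul]
    have e1 : Real.exp ((k : ℝ) - h + 1) * Real.exp ((h : ℝ) + 1) =
        Real.exp (k : ℝ) * (Real.exp 1 * Real.exp 1) := by
      rw [← Real.exp_add, ← Real.exp_add, ← Real.exp_add]; ring_nf
    have e2 := mul_le_mul_of_nonneg_left hh2 (Real.exp_pos ((k : ℝ) - h + 1)).le
    have e3 : Real.exp 1 * Real.exp 1 ≤ 8 := by nlinarith [Real.exp_one_lt_d9, Real.exp_pos 1]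
    have e4 := mul_le_mul_of_nonneg_left e3 (Real.exp_pos (k : ℝ)).le
    have e5 := mul_le_mul_of_nonneg_left hj1 (Real.exp_pos ((k : ℝ) - h + 1)).le
    linarith
  have hsum : ∑ r ∈ S, f r ≤ (b : ℝ) - a + R := by
    have h1 := (abs_le.1 (band_mass_sharp hC a (min b (k - h)))).2
    have h2 : (((min b (k - h) - a : ℕ)) : ℝ) ≤ (b : ℝ) - a := by
      rw [← Nat.cast_sub hab.le]
      exact_mod_cast (show min b (k - h) - a ≤ b - a by omega)
    calc ∑ r ∈ S, f r ≤ ∑ r ∈ S, ((1 : ℝ) / r + 2 * (1 / (r : ℝ) ^ 2)) := by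
          refine sum_le_sum fun r hr => ?_
          have hr2 : (2 : ℝ) ≤ r := by exact_mod_cast (hSp r hr).1.two_le
          have e : (1 : ℝ) / r + 2 * (1 / (r : ℝ) ^ 2) = ((r : ℝ) + 2) / (r : ℝ) ^ 2 := by
            field_simp
          simp only [hf]
          rw [e, div_le_div_iff₀ (by linarith) (by positivity)]
          nlinarith
      _ ≤ _ := by
          rw [sum_add_distrib, ← mul_sum]
          linarith [sum_inv_sq_le S, abs_nonneg C]
  set A : ℝ := (b : ℝ) - a + R with hA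
  have hab' : (0 : ℝ) ≤ (b : ℝ) - a := by
    have : (a : ℝ) ≤ b := by exact_mod_cast hab.le
    linarith
  have hA0 : 0 < A := by linarith [abs_nonneg C]
  have hhits : ∀ q ∈ G, j ≤ hits S (q - 1) ∧ A + u / 2 + j ≤ (hits S (q - 1) : ℝ) + 1 := by
    intro q hq
    obtain ⟨hqc, hqY, hbig⟩ := mem_filter.1 hq
    obtain ⟨hqp, hqk⟩ := mem_cell.1 hqc
    set top := (q - 1).primeFactors.filter (fun r => k - h < kap r) with htop
    have hsplit : omI a b (q - 1) ≤ hits S (q - 1) + top.card := by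
      refine (card_le_card ?_).trans (card_union_le _ _)
      intro r hr
      obtain ⟨hr1, hr2, hr3⟩ := mem_filter.1 hr
      by_cases hlow : kap r ≤ k - h
      · exact mem_union_left _ (mem_filter.2 ⟨Crude.mem_band.2
          ⟨(Nat.mem_primeFactors.1 hr1).1, hr2, le_min hr3 hlow⟩, (Nat.mem_primeFactors.1 hr1).2.1⟩)
      · exact mem_union_right _ (mem_filter.2 ⟨hr1, by omega⟩)
    have htopc : (top.card : ℝ) ≤ w := by
      have h1 : (top.card : ℝ) * Real.exp ((k : ℝ) - h + 1) ≤ ∑ r ∈ top, Real.log r := by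
        rw [← nsmul_eq_mul, ← sum_const]
        refine sum_le_sum fun r hr => ?_
        have hr2 := (mem_filter.1 hr).2
        have h2 := exp_le_log (p := r) (s := k - h + 1) (by omega) (by omega)
        push_cast [Nat.cast_sub hhk] at h2
        exact h2
      have hq1 : 0 < q - 1 := by have := hqp.two_le; omega
      have h3 : ∑ r ∈ top, Real.log r ≤ Real.log Y := by
        rw [← Real.log_prod (fun r hr => by
          exact_mod_cast (Nat.mem_primeFactors.1 (mem_filter.1 hr).1).1.ne_zero), ← Nat.cast_prod]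
        have h4 : ∏ r ∈ top, r ∣ q - 1 :=
          (prod_dvd_prod_of_subset _ _ _ (filter_subset _ _)).trans
            (Nat.prod_primeFactors_dvd _)
        refine Real.log_le_log ?_ (le_trans ?_ hqY)
        · exact_mod_cast Nat.pos_of_dvd_of_pos h4 hq1
        · exact_mod_cast (Nat.le_of_dvd hq1 h4).trans (Nat.sub_le q 1)
      have h5 : Real.exp ((k : ℝ) + 1) = Real.exp (h : ℝ) * Real.exp ((k : ℝ) - h + 1) := by
        rw [← Real.exp_add]; ring_nf
      refine le_of_mul_le_mul_right ?_ (Real.exp_pos ((k : ℝ) - h + 1))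
      have h6 := mul_le_mul_of_nonneg_right hh1 (Real.exp_pos ((k : ℝ) - h + 1)).le
      linarith
    have h1 : (omI a b (q - 1) : ℝ) ≤ (hits S (q - 1) : ℝ) + top.card := by exact_mod_cast hsplit
    refine ⟨?_, by linarith⟩
    exact_mod_cast (show (j : ℝ) ≤ hits S (q - 1) by linarith)
  have hB0 : 0 ≤ 2 * C₁ * Y / Real.log Y :=
    div_nonneg (by nlinarith) (Real.log_nonneg (by linarith))
  have hm := moment (primesUpTo Y) S f hf0 hB0 j hB G hGQ (x := A + u / 2) (by linarith) hhits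
  have hm' : (G.card : ℝ) * (A + u / 2) ^ j ≤ 2 * C₁ * Y / Real.log Y * A ^ j :=
    hm.trans (mul_le_mul_of_nonneg_left (pow_le_pow_left₀ (sum_nonneg hf0) hsum j) hB0)
  have hAk : A + u / 2 ≤ 2 * k := by
    have h1 : (b : ℝ) ≤ k := by exact_mod_cast hbk
    linarith [show (0 : ℝ) ≤ a from Nat.cast_nonneg a]
  have hu0 : 0 < u := by linarith
  have hratio : (A / (A + u / 2)) ^ j ≤ dec k := by
    have h1 : A / (A + u / 2) ≤ Real.exp (-(u / (4 * k))) := by
      refine le_trans ?_ (Real.add_one_le_exp _)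
      rw [div_le_iff₀ (by linarith)]
      have : u / (4 * k) * (A + u / 2) ≤ u / 2 := by
        rw [div_mul_eq_mul_div, div_le_iff₀ (by positivity)]
        nlinarith
      linarith
    refine (pow_le_pow_left₀ (by positivity) h1 j).trans ?_
    rw [dec, ← Real.exp_nat_mul]
    refine Real.exp_le_exp.2 ?_
    have h2 := mul_le_mul_of_nonneg_left hj2 (show 0 ≤ u / (4 * (k : ℝ)) by positivity)
    have h3 : u / (4 * (k : ℝ)) * (w / 32) = 1 / 128 * (k : ℝ) ^ ((1 : ℝ) / 2) := by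
      have e : u * w = (k : ℝ) ^ ((1 : ℝ) / 2) * k := by
        rw [hu, hw, ← Real.rpow_add hk0, ← Real.rpow_add_one hk0.ne']
        norm_num
      calc u / (4 * (k : ℝ)) * (w / 32) = u * w / (128 * k) := by ring
        _ = _ := by rw [e]; field_simp
    linarith
  have hpos : 0 < (A + u / 2) ^ j := pow_pos (by linarith) j
  calc (G.card : ℝ) ≤ 2 * C₁ * Y / Real.log Y * A ^ j / (A + u / 2) ^ j :=
        (le_div_iff₀ hpos).2 hm'
    _ = 2 * C₁ * (Y / Real.log Y) * (A / (A + u / 2)) ^ j := by rw [div_pow]; ring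
    _ ≤ _ := mul_le_mul_of_nonneg_left hratio (by rw [← mul_div_assoc]; exact hB0)

/-- Too many prime factors. -/
lemma overfull {C : ℝ} (hC : ∀ k : ℕ, |(∑ p ∈ cell k, (1 : ℝ) / p) - 1| ≤
      C * Real.exp (-(k : ℝ))) {k : ℕ} (hk : (1 : ℝ) ≤ k) {Y : ℝ}
    (hY : Real.exp (Real.exp (k : ℝ)) ≤ Y) (hY' : Y ≤ Real.exp (Real.exp ((k : ℝ) + 1))) :
    (((cell k).filter (fun q : ℕ => (q : ℝ) ≤ Y ∧ 20 * (k + 1) < bigOm (q - 1))).card : ℝ) ≤
      Real.exp (8 * |C|) * (Y / Real.log Y) * dec k := by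
  have hY0 : 1 < Y := lt_of_lt_of_le (Real.one_lt_exp_iff.2 (Real.exp_pos _)) hY
  set G := (cell k).filter (fun q : ℕ => (q : ℝ) ≤ Y ∧ 20 * (k + 1) < bigOm (q - 1))
  have hinj : Set.InjOn (fun q : ℕ => q - 1) G := by
    intro x hx y hy hxy
    have h1 := (mem_cell.1 (mem_filter.1 (mem_coe.1 hx)).1).1.two_le
    have h2 := (mem_cell.1 (mem_filter.1 (mem_coe.1 hy)).1).1.two_le
    simp only at hxy
    omega
  rw [← card_image_of_injOn hinj]
  refine (many_factors hC k Y _ (by linarith) ?_).trans ?_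
  · intro n hn
    obtain ⟨q, hq, rfl⟩ := mem_image.1 hn
    obtain ⟨hqc, hqY, hom⟩ := mem_filter.1 hq
    obtain ⟨hqp, hqk⟩ := mem_cell.1 hqc
    refine ⟨by have := hqp.two_le; omega, le_trans ?_ hqY, fun r hr => ?_, hom⟩
    · exact_mod_cast Nat.sub_le q 1
    · exact (primeFactors_pred hr).2.2.1.trans hqk.le
  · have hl : Real.log Y ≤ Real.exp ((k : ℝ) + 1) := by
      rw [← Real.log_exp (Real.exp ((k : ℝ) + 1))]
      exact Real.log_le_log (by linarith) hY'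
    have hl0 : 0 < Real.log Y := Real.log_pos hY0
    have e : Y = Y / Real.log Y * Real.log Y := by rw [div_mul_cancel₀ _ hl0.ne']
    conv_lhs => rw [e]
    rw [mul_comm (Real.exp (8 * |C|)), mul_assoc, mul_assoc]
    refine mul_le_mul_of_nonneg_left ?_ (div_nonneg (by linarith) hl0.le)
    refine (mul_le_mul_of_nonneg_right hl (Real.exp_pos _).le).trans ?_
    rw [dec, ← Real.exp_add, ← Real.exp_add]
    refine Real.exp_le_exp.2 ?_
    have : (k : ℝ) ^ ((1 : ℝ) / 2) ≤ (k : ℝ) ^ (1 : ℝ) :=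
      Real.rpow_le_rpow_of_exponent_le hk (by norm_num)
    rw [Real.rpow_one] at this
    linarith

lemma abn_cases {k : ℕ} {Y : ℝ} {q : ℕ} (hq : q ∈ abn k Y) :
    q ∈ (cell k).filter (fun q : ℕ => (q : ℝ) ≤ Y ∧ 20 * (k + 1) < bigOm (q - 1)) ∨
    ∃ p ∈ (range (k + 1) ×ˢ range (k + 1)).filter (fun p => p.1 < p.2),
      q ∈ (cell k).filter (fun q : ℕ => (q : ℝ) ≤ Y ∧
        (omI p.1 p.2 (q - 1) : ℝ) < (p.2 : ℝ) - p.1 - (k : ℝ) ^ ((4 : ℝ) / 5)) ∪
      (cell k).filter (fun q : ℕ => (q : ℝ) ≤ Y ∧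
        (p.2 : ℝ) - p.1 + (k : ℝ) ^ ((4 : ℝ) / 5) < (omI p.1 p.2 (q - 1) : ℝ)) := by
  obtain ⟨hc, hY, hn⟩ := mem_filter.1 hq
  obtain ⟨hp, hk⟩ := mem_cell.1 hc
  by_cases hom : 20 * (k + 1) < bigOm (q - 1)
  · exact Or.inl (mem_filter.2 ⟨hc, hY, hom⟩)
  right
  rw [Normal, hk] at hn
  push Not at hn hom
  obtain ⟨a, b, hab, hbk, hgt⟩ := hn hp hom
  refine ⟨(a, b), mem_filter.2 ⟨mem_product.2 ⟨mem_range.2 (by omega), mem_range.2 (by omega)⟩,
    hab⟩, ?_⟩
  rcases lt_abs.1 hgt with h | h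
  · exact mem_union_right _ (mem_filter.2 ⟨hc, hY, by simp only; linarith⟩)
  · exact mem_union_left _ (mem_filter.2 ⟨hc, hY, by simp only; linarith⟩)

lemma div_log_mono {y Y : ℝ} (hy : Real.exp 1 ≤ y) (h : y ≤ Y) :
    y / Real.log y ≤ Y / Real.log Y := by
  have hy0 : 0 < y := (Real.exp_pos 1).trans_le hy
  have hl1 : 1 ≤ Real.log y := by
    rw [← Real.log_exp 1]; exact Real.log_le_log (Real.exp_pos 1) hy
  have hlY : Real.log y ≤ Real.log Y := Real.log_le_log hy0 h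
  rw [div_le_div_iff₀ (by linarith) (by linarith)]
  have h1 : Real.log Y - Real.log y ≤ Y / y - 1 := by
    rw [← Real.log_div (by linarith) hy0.ne']
    exact Real.log_le_sub_one_of_pos (div_pos (by linarith) hy0)
  have h2 := mul_le_mul_of_nonneg_left h1 hy0.le
  rw [mul_sub, mul_sub, mul_div_cancel₀ _ hy0.ne', mul_one] at h2
  nlinarith

end Normality

open Normality in
/-- Abnormal primes are rare: `AbnormalCountStmt`. -/
theorem abnormalCount (hM : MertensStmt) (hS₀ : SieveAvoidStmt) (hS₁ : SieveProgStmt) :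
    AbnormalCountStmt := by
  obtain ⟨C, hC⟩ := hM
  obtain ⟨D₀, hD₀⟩ := hS₀
  obtain ⟨D₁, hD₁⟩ := hS₁
  set C₀ : ℝ := |D₀|
  set C₁ : ℝ := |D₁|
  have hsA : ∀ (Y : ℝ), 2 ≤ Y → ∀ S : Finset ℕ, (∀ r ∈ S, r.Prime ∧ 3 ≤ r ∧ (r : ℝ) ≤ Y) →
      (((Icc 2 ⌊Y⌋₊).filter (fun q => q.Prime ∧ ∀ r ∈ S, ¬ r ∣ q - 1)).card : ℝ) ≤
        C₀ * Y / Real.log Y * Real.exp (-∑ r ∈ S, (1 : ℝ) / r) := by
    intro Y hY S hS
    refine (hD₀ Y hY S hS).trans ?_
    have := Real.log_pos (show (1 : ℝ) < Y by linarith)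
    gcongr
    exact le_abs_self D₀
  have hsP : ∀ (Y : ℝ), 2 ≤ Y → ∀ d : ℕ, 0 < d →
      (((Icc 1 ⌊Y⌋₊).filter (fun n => (d * n + 1).Prime)).card : ℝ) ≤
        C₁ * Y / Real.log Y * ((d : ℝ) / d.totient) := by
    intro Y hY d hd
    refine (hD₁ Y hY d hd).trans ?_
    have := Real.log_pos (show (1 : ℝ) < Y by linarith)
    gcongr
    exact le_abs_self D₁
  have ht : Tendsto (fun k : ℕ => (k : ℝ) ^ ((1 : ℝ) / 2)) atTop atTop :=
    (tendsto_rpow_atTop (by norm_num)).comp tendsto_natCast_atTop_atTop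
  set K : ℝ := C₀ * Real.exp (10 + 4 * |C|) + 2 * C₁ + Real.exp (8 * |C|) with hK
  have hK0 : 0 ≤ K := by positivity
  obtain ⟨k₀, hk₀⟩ := eventually_atTop.1 (large_eventually (10 + 4 * |C|))
  refine ⟨1 / 256, max (C₀ * Real.exp ((k₀ : ℝ) + 1)) (4 * K * (6 * 256 : ℝ) ^ 6), by norm_num,
    fun k Y hY => ?_⟩
  change ((abn k Y).card : ℝ) ≤ _
  have hlY : 0 < Real.log Y := Real.log_pos (by linarith)
  set s : ℝ := (k : ℝ) ^ ((1 : ℝ) / 2) with hs
  have hs0 : 0 ≤ s := by positivity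
  rw [mul_div_assoc]
  rcases lt_or_ge k k₀ with hk | hk
  · refine le_trans (le_trans (Nat.cast_le.2 (card_le_card ?_)) (hsA Y hY ∅ (by simp))) ?_
    · intro q hq
      obtain ⟨hc, hqY, -⟩ := mem_filter.1 hq
      obtain ⟨hp, -⟩ := mem_cell.1 hc
      exact mem_filter.2 ⟨mem_Icc.2 ⟨hp.two_le, (Nat.le_floor_iff (by linarith)).2 hqY⟩, hp,
        by simp⟩
    · simp only [sum_empty, neg_zero, Real.exp_zero, mul_one, mul_div_assoc]
      have h1 : C₀ ≤ C₀ * Real.exp ((k₀ : ℝ) + 1) * Real.exp (-(1 / 256) * s) := by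
        rw [mul_assoc, ← Real.exp_add]
        refine le_mul_of_one_le_right (abs_nonneg D₀) (Real.one_le_exp ?_)
        rcases Nat.eq_zero_or_pos k with h0 | h0
        · subst h0
          simp [hs]
          positivity
        have : s ≤ (k : ℝ) := by
          calc s ≤ (k : ℝ) ^ (1 : ℝ) :=
                Real.rpow_le_rpow_of_exponent_le (by exact_mod_cast h0) (by norm_num)
            _ = k := Real.rpow_one _
        have : (k : ℝ) ≤ k₀ := by exact_mod_cast hk.le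
        linarith
      calc C₀ * (Y / Real.log Y)
          ≤ C₀ * Real.exp ((k₀ : ℝ) + 1) * Real.exp (-(1 / 256) * s) * (Y / Real.log Y) :=
            mul_le_mul_of_nonneg_right h1 (by positivity)
        _ ≤ max (C₀ * Real.exp ((k₀ : ℝ) + 1)) (4 * K * (6 * 256 : ℝ) ^ 6) *
              Real.exp (-(1 / 256) * s) * (Y / Real.log Y) := by
            gcongr
            exact le_max_left _ _
        _ = _ := by ring
  have hL := hk₀ k hk
  have hk1 : (1 : ℝ) ≤ k := by linarith [hL.hk]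
  have hk1' : 1 ≤ k := by exact_mod_cast hk1
  rcases lt_or_ge Y (Real.exp (Real.exp (k : ℝ))) with hlow | hlow
  · have he : abn k Y = ∅ := by
      refine eq_empty_of_forall_notMem fun q hq => ?_
      obtain ⟨hc, hqY, -⟩ := mem_filter.1 hq
      have := exp_exp_le hk1' (mem_cell.1 hc).2.ge
      linarith
    rw [he]
    simp only [card_empty, Nat.cast_zero]
    positivity
  set y : ℝ := min Y (Real.exp (Real.exp ((k : ℝ) + 1)))
  have hy1 : Real.exp (Real.exp (k : ℝ)) ≤ y :=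
    le_min hlow (Real.exp_le_exp.2 (Real.exp_le_exp.2 (by linarith)))
  have hy2 : y ≤ Real.exp (Real.exp ((k : ℝ) + 1)) := min_le_right _ _
  have hmono : y / Real.log y ≤ Y / Real.log Y :=
    div_log_mono (le_trans (Real.exp_le_exp.2 (Real.one_le_exp (by linarith))) hy1) (min_le_left _ _)
  set Q : ℝ := y / Real.log y * dec k with hQ
  have hQ0 : 0 ≤ Q := by
    have : 1 < y := lt_of_lt_of_le (Real.one_lt_exp_iff.2 (Real.exp_pos _)) hy1
    have := Real.log_pos this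
    exact mul_nonneg (div_nonneg (by linarith) this.le) (Real.exp_pos _).le
  have hsub : abn k Y ⊆
      (cell k).filter (fun q : ℕ => (q : ℝ) ≤ y ∧ 20 * (k + 1) < bigOm (q - 1)) ∪
      ((range (k + 1) ×ˢ range (k + 1)).filter (fun p => p.1 < p.2)).biUnion (fun p =>
      (cell k).filter (fun q : ℕ => (q : ℝ) ≤ y ∧
        (omI p.1 p.2 (q - 1) : ℝ) < (p.2 : ℝ) - p.1 - (k : ℝ) ^ ((4 : ℝ) / 5)) ∪
      (cell k).filter (fun q : ℕ => (q : ℝ) ≤ y ∧
        (p.2 : ℝ) - p.1 + (k : ℝ) ^ ((4 : ℝ) / 5) < (omI p.1 p.2 (q - 1) : ℝ))) := by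
    intro q hq
    obtain ⟨hc, hqY, hn⟩ := mem_filter.1 hq
    obtain ⟨hp, hkq⟩ := mem_cell.1 hc
    have hqy : q ∈ abn k y :=
      mem_filter.2 ⟨hc, le_min hqY (le_of_kap hp hkq.le).2, hn⟩
    rcases abn_cases hqy with h | ⟨p, hp, h⟩
    · exact mem_union_left _ h
    · exact mem_union_right _ (mem_biUnion.2 ⟨p, hp, h⟩)
  have hcard : ((abn k Y).card : ℝ) ≤ (((k : ℝ) + 1) ^ 2 + 1) * K * Q := by
    refine (Nat.cast_le.2 ((card_le_card hsub).trans ((card_union_le _ _).trans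
      (Nat.add_le_add_left card_biUnion_le _)))).trans ?_
    push_cast
    have h3 := overfull hC hk1 hy1 hy2
    have hb : ∀ p ∈ (range (k + 1) ×ˢ range (k + 1)).filter (fun p => p.1 < p.2),
        ((((cell k).filter (fun q : ℕ => (q : ℝ) ≤ y ∧
          (omI p.1 p.2 (q - 1) : ℝ) < (p.2 : ℝ) - p.1 - (k : ℝ) ^ ((4 : ℝ) / 5))) ∪
        (cell k).filter (fun q : ℕ => (q : ℝ) ≤ y ∧
          (p.2 : ℝ) - p.1 + (k : ℝ) ^ ((4 : ℝ) / 5) < (omI p.1 p.2 (q - 1) : ℝ))).card : ℝ) ≤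
          K * Q := by
      intro p hp
      obtain ⟨hp1, hp2⟩ := mem_filter.1 hp
      have hbk : p.2 ≤ k := Nat.lt_succ_iff.1 (mem_range.1 (mem_product.1 hp1).2)
      refine (Nat.cast_le.2 (card_union_le _ _)).trans ?_
      push_cast
      have h1 := deficit hC (abs_nonneg D₀) hsA hL hp2 hbk hy1
      have h2 := excess hC (abs_nonneg D₁) hsP hL hp2 hbk hy1 hy2
      have h4 : 0 ≤ Real.exp (8 * |C|) * Q := by positivity
      rw [hK]
      simp only [hQ] at h4 ⊢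
      linarith
    refine (add_le_add h3 (sum_le_card_nsmul _ _ _ hb)).trans ?_
    rw [nsmul_eq_mul]
    have hn : ((((range (k + 1) ×ˢ range (k + 1)).filter (fun p => p.1 < p.2)).card : ℕ) : ℝ) ≤
        ((k : ℝ) + 1) ^ 2 := by
      have := card_filter_le (range (k + 1) ×ˢ range (k + 1)) (fun p => p.1 < p.2)
      rw [card_product, card_range] at this
      calc _ ≤ (((k + 1) * (k + 1) : ℕ) : ℝ) := by exact_mod_cast this
        _ = _ := by push_cast; ring
    have h5 := mul_le_mul_of_nonneg_right hn (mul_nonneg hK0 hQ0)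
    have h6 : Real.exp (8 * |C|) * Q ≤ K * Q := by
      refine mul_le_mul_of_nonneg_right ?_ hQ0
      rw [hK]
      linarith [show 0 ≤ C₀ * Real.exp (10 + 4 * |C|) by positivity,
        show 0 ≤ C₁ from abs_nonneg _]
    simp only [hQ] at h5 h6 ⊢
    linarith
  have hpoly : ((k : ℝ) + 1) ^ 2 + 1 ≤ 4 * (6 * 256 : ℝ) ^ 6 * Real.exp (1 / 256 * s) := by
    have h6 : (1 / 256 * s / 6) ^ 6 ≤ Real.exp (1 / 256 * s) := by
      have h : 1 / 256 * s / 6 ≤ Real.exp (1 / 256 * s / 6) := by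
        linarith [Real.add_one_le_exp (1 / 256 * s / 6)]
      refine (pow_le_pow_left₀ (by positivity) h 6).trans ?_
      rw [← Real.exp_nat_mul]
      exact Real.exp_le_exp.2 (le_of_eq (by push_cast; ring))
    have e : s ^ 6 = (k : ℝ) ^ 3 := by
      rw [hs, ← Real.rpow_natCast _ 6, ← Real.rpow_mul (by linarith), ← Real.rpow_natCast _ 3]
      norm_num
    have e' : (1 / 256 * s / 6) ^ 6 * (6 * 256 : ℝ) ^ 6 = (k : ℝ) ^ 3 := by
      rw [← e]; ring
    have h7 := mul_le_mul_of_nonneg_right h6 (show (0 : ℝ) ≤ (6 * 256 : ℝ) ^ 6 by positivity)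
    rw [e'] at h7
    nlinarith [hL.hk]
  calc ((abn k Y).card : ℝ) ≤ (((k : ℝ) + 1) ^ 2 + 1) * K * Q := hcard
    _ ≤ 4 * (6 * 256 : ℝ) ^ 6 * Real.exp (1 / 256 * s) * K * (Y / Real.log Y * dec k) := by
        refine mul_le_mul (mul_le_mul_of_nonneg_right hpoly hK0) ?_ hQ0 (by positivity)
        exact mul_le_mul_of_nonneg_right hmono (Real.exp_pos _).le
    _ = 4 * K * (6 * 256 : ℝ) ^ 6 * (Y / Real.log Y) * (Real.exp (1 / 256 * s) * dec k) := by ring
    _ = 4 * K * (6 * 256 : ℝ) ^ 6 * (Y / Real.log Y) * Real.exp (-(1 / 256) * s) := by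
        rw [dec, ← hs, ← Real.exp_add]; ring_nf
    _ ≤ _ := by
        refine mul_le_mul_of_nonneg_right ?_ (Real.exp_pos _).le
        refine mul_le_mul_of_nonneg_right ?_ (by positivity)
        exact le_max_right _ _

open Normality in
/-- Abnormal primes are rare by reciprocals: dyadic summation of the count. -/
theorem abnormalSum_of_count (h : AbnormalCountStmt) : AbnormalSumStmt := by
  obtain ⟨c, C, hc, hC⟩ := h
  refine ⟨c, 40 * |C|, hc, fun k => ?_⟩
  set E : ℝ := Real.exp (-c * (k : ℝ) ^ ((1 : ℝ) / 2))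
  have hl2 : (0.69 : ℝ) ≤ Real.log 2 := by linarith [Real.log_two_gt_d9]
  have hl2' : Real.log 2 ≤ 0.7 := by linarith [Real.log_two_lt_d9]
  set P := (cell k).filter (fun q : ℕ => ¬ Normal q)
  have hj : ∀ j : ℕ, ∑ q ∈ P.filter (fun q => Nat.log 2 q = j), (1 : ℝ) / q ≤
      |C| * E * (2 / (((j : ℝ) + 1) * Real.log 2)) := by
    intro j
    have hsub : P.filter (fun q => Nat.log 2 q = j) ⊆
        (cell k).filter (fun q : ℕ => (q : ℝ) ≤ (2 : ℝ) ^ (j + 1) ∧ ¬ Normal q) := by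
      intro q hq
      obtain ⟨hq1, rfl⟩ := mem_filter.1 hq
      obtain ⟨hq2, hq3⟩ := mem_filter.1 hq1
      exact mem_filter.2 ⟨hq2, by exact_mod_cast (Nat.lt_pow_succ_log_self one_lt_two q).le, hq3⟩
    calc ∑ q ∈ P.filter (fun q => Nat.log 2 q = j), (1 : ℝ) / q
        ≤ ∑ _q ∈ P.filter (fun q => Nat.log 2 q = j), 1 / (2 : ℝ) ^ j := by
          refine sum_le_sum fun q hq => ?_
          obtain ⟨hq1, rfl⟩ := mem_filter.1 hq
          have hq0 := (mem_cell.1 (mem_filter.1 hq1).1).1.ne_zero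
          exact one_div_le_one_div_of_le (by positivity)
            (by exact_mod_cast Nat.pow_log_le_self 2 hq0)
      _ = ((P.filter (fun q => Nat.log 2 q = j)).card : ℝ) * (1 / (2 : ℝ) ^ j) := by
          rw [sum_const, nsmul_eq_mul]
      _ ≤ C * (2 : ℝ) ^ (j + 1) / Real.log ((2 : ℝ) ^ (j + 1)) * E * (1 / (2 : ℝ) ^ j) := by
          refine mul_le_mul_of_nonneg_right ((Nat.cast_le.2 (card_le_card hsub)).trans
            (hC k _ ?_)) (by positivity)
          rw [pow_succ]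
          nlinarith [one_le_pow₀ (show (1 : ℝ) ≤ 2 by norm_num) (n := j)]
      _ = C * E * (2 / (((j : ℝ) + 1) * Real.log 2)) := by
          rw [Real.log_pow, pow_succ]
          push_cast
          field_simp
      _ ≤ _ := by
          gcongr
          exact le_abs_self C
  set J := P.image (Nat.log 2)
  rw [← sum_fiberwise_of_maps_to (g := Nat.log 2) (t := J) (fun q hq => mem_image_of_mem _ hq)]
  refine (sum_le_sum fun j _ => hj j).trans ?_
  rw [← mul_sum]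
  have key : ∑ j ∈ J, 2 / (((j : ℝ) + 1) * Real.log 2) ≤ 40 := by
    have hup : ∀ j ∈ J, j ≤ ⌊Real.exp ((k : ℝ) + 1) / Real.log 2⌋₊ := by
      intro j hj
      obtain ⟨q, hq, rfl⟩ := mem_image.1 hj
      obtain ⟨hp, hk⟩ := mem_cell.1 (mem_filter.1 hq).1
      rw [Nat.le_floor_iff (by positivity), le_div_iff₀ (by linarith), ← Real.log_pow]
      refine le_trans (Real.log_le_log (by positivity) ?_) (le_of_kap hp hk.le).1
      exact_mod_cast Nat.pow_log_le_self 2 hp.ne_zero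
    have hcardJ : (J.card : ℝ) ≤ Real.exp ((k : ℝ) + 1) / Real.log 2 + 1 := by
      have h1 : J.card ≤ ⌊Real.exp ((k : ℝ) + 1) / Real.log 2⌋₊ + 1 := by
        refine (card_le_card (fun j hj => mem_range.2 (Nat.lt_succ_of_le (hup j hj)))).trans ?_
        simp
      have h2 := Nat.floor_le (show 0 ≤ Real.exp ((k : ℝ) + 1) / Real.log 2 by positivity)
      have : (J.card : ℝ) ≤ (⌊Real.exp ((k : ℝ) + 1) / Real.log 2⌋₊ : ℝ) + 1 := by exact_mod_cast h1
      linarith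
    have hlow : ∀ j ∈ J, Real.exp (k : ℝ) / 2 ≤ ((j : ℝ) + 1) * Real.log 2 := by
      intro j hj
      obtain ⟨q, hq, rfl⟩ := mem_image.1 hj
      obtain ⟨hp, hk⟩ := mem_cell.1 (mem_filter.1 hq).1
      rcases Nat.eq_zero_or_pos k with h0 | h0
      · subst h0
        simp only [Nat.cast_zero, Real.exp_zero]
        nlinarith [show (0 : ℝ) ≤ (Nat.log 2 q : ℝ) from Nat.cast_nonneg _]
      have h1 := exp_le_log h0 hk.ge
      have h2 : Real.log q ≤ Real.log ((2 : ℝ) ^ (Nat.log 2 q + 1)) :=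
        Real.log_le_log (by exact_mod_cast hp.pos)
          (by exact_mod_cast (Nat.lt_pow_succ_log_self one_lt_two q).le)
      rw [Real.log_pow] at h2
      push_cast at h2
      linarith [Real.exp_pos (k : ℝ)]
    calc ∑ j ∈ J, 2 / (((j : ℝ) + 1) * Real.log 2) ≤ ∑ _j ∈ J, 4 / Real.exp (k : ℝ) := by
          refine sum_le_sum fun j hj => ?_
          rw [div_le_div_iff₀ (by positivity) (Real.exp_pos _)]
          linarith [hlow j hj]
      _ = (J.card : ℝ) * (4 / Real.exp (k : ℝ)) := by rw [sum_const, nsmul_eq_mul]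
      _ ≤ (Real.exp ((k : ℝ) + 1) / Real.log 2 + 1) * (4 / Real.exp (k : ℝ)) :=
          mul_le_mul_of_nonneg_right hcardJ (by positivity)
      _ = 4 * Real.exp 1 / Real.log 2 + 4 / Real.exp (k : ℝ) := by
          rw [Real.exp_add]; field_simp
      _ ≤ 40 := by
          have h1 : 4 * Real.exp 1 / Real.log 2 ≤ 20 := by
            rw [div_le_iff₀ (by linarith)]
            linarith [Real.exp_one_lt_d9]
          have h2 : 4 / Real.exp (k : ℝ) ≤ 4 :=
            div_le_self (by norm_num) (Real.one_le_exp (Nat.cast_nonneg k))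
          linarith
  calc |C| * E * ∑ j ∈ J, 2 / (((j : ℝ) + 1) * Real.log 2) ≤ |C| * E * 40 :=
        mul_le_mul_of_nonneg_left key (by positivity)
    _ = _ := by ring

/-- Abnormal primes are rare by reciprocals: `AbnormalSumStmt`. -/
theorem abnormalSum (hM : MertensStmt) (hS₀ : SieveAvoidStmt) (hS₁ : SieveProgStmt) :
    AbnormalSumStmt :=
  abnormalSum_of_count (abnormalCount hM hS₀ hS₁)

end Vale.Agent.P031
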