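import Vale.Agent.P031.Asm.Final
import Vale.Agent.P031.PNT.Main
import Vale.Agent.P031.Mertens.Main
import Vale.Agent.P031.Sieve.Apps
import Vale.Agent.P031.LayerMain
import Vale.Agent.P031.Normality
import Vale.Agent.P031.Exceed
import Vale.Agent.P031.Crude
import Vale.Agent.P031.Coll.Bound
import Vale.Agent.P031.Asm.RegA
import Vale.Agent.P031.Asm.RegB
import Vale.Agent.P031.Asm.Boundary

/-!
# The ratio `V(cx)/V(x)`: putting the modules together
-/

open Filter Topology

namespace Vale.Agent.P031

/-- Regular variation of the counting function of totient values. -/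
theorem ratio_main
    (hLow : PNTStmt → MertensStmt → AbnormalSumStmt → AbnormalCountStmt → SieveProgStmt →
      CollSumStmt → CollCountStmt → LowerStmt)
    (hPairs : PNTStmt → MertensStmt → AbnormalSumStmt → AbnormalCountStmt → CrudeStmt →
      CollCountStmt → PairsStmt)
    (c : ℝ) (hc : 1 < c) :
    Tendsto (fun x : ℝ => (Vcount (c * x) : ℝ) / Vcount x) atTop (𝓝 c) := by
  have hM : MertensStmt := Mertens.mertens
  have hP : PNTStmt := PNT.pnt
  have hAC := abnormalCount hM sieveAvoid sieveProg
  have hAS := abnormalSum hM sieveAvoid sieveProg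
  have hX := exceedSum hM
  have hXC := exceedCount hM
  have hCr := crude hM hX hAS
  obtain ⟨hCS, hCC⟩ := collision hM sievePair sieveTriple
  exact ratio_tendsto hP Layer.layer (RegA.regA hM hAC hAS hCr) (regB hM hX hXC hCr)
    (Boundary.boundary hM hCr) (hLow hP hM hAS hAC sieveProg hCS hCC)
    (hPairs hP hM hAS hAC hCr hCC) c hc

end Vale.Agent.P031
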