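import Vale.Agent.P031.CrudeParts

/-!
# Normality: generic counting lemmas

Thinning of a sieved set, moments of the number of divisors inside a set of primes, and the number
of integers with many prime factors.
-/

open Finset
open scoped Classical

namespace Vale.Agent.P031.Normality

/-- Primes up to `Y`. -/
noncomputable def primesUpTo (Y : ℝ) : Finset ℕ := (Icc 2 ⌊Y⌋₊).filter Nat.Prime

lemma mem_primesUpTo {Y : ℝ} (hY : 0 ≤ Y) {q : ℕ} :
    q ∈ primesUpTo Y ↔ q.Prime ∧ (q : ℝ) ≤ Y := by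
  simp only [primesUpTo, mem_filter, mem_Icc, Nat.le_floor_iff hY]
  exact ⟨fun h => ⟨h.2, h.1.2⟩, fun h => ⟨⟨h.1.two_le, h.2⟩, h.1⟩⟩

/-- All members of `T` divide `n`. -/
def Divides (T : Finset ℕ) (n : ℕ) : Prop := ∀ r ∈ T, r ∣ n

/-- Number of divisors of `n` inside `S`. -/
def hits (S : Finset ℕ) (n : ℕ) : ℕ := (S.filter (· ∣ n)).card

lemma le_of_kap {p k : ℕ} (hp : p.Prime) (h : kap p ≤ k) :
    Real.log p ≤ Real.exp ((k : ℝ) + 1) ∧ (p : ℝ) ≤ Real.exp (Real.exp ((k : ℝ) + 1)) := by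
  have h1 : (1 : ℝ) < p := by exact_mod_cast hp.one_lt
  have hl : 0 < Real.log p := Real.log_pos h1
  have h2 : Real.log (Real.log p) ≤ (k : ℝ) + 1 := by
    have h3 := Nat.lt_floor_add_one (Real.log (Real.log (p : ℝ)))
    have h4 : (kap p : ℝ) ≤ k := by exact_mod_cast h
    have : Real.log (Real.log p) < (kap p : ℝ) + 1 := h3
    linarith
  have h5 : Real.log p ≤ Real.exp ((k : ℝ) + 1) := by
    rw [← Real.exp_log hl]; exact Real.exp_le_exp.2 h2
  refine ⟨h5, ?_⟩
  rw [← Real.exp_log (by linarith : (0 : ℝ) < p)]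
  exact Real.exp_le_exp.2 h5

lemma exp_le_log {p s : ℕ} (hs : 1 ≤ s) (h : s ≤ kap p) : Real.exp (s : ℝ) ≤ Real.log p := by
  have h1 := exp_exp_le hs h
  rw [← Real.log_exp (Real.exp (s : ℝ))]
  exact Real.log_le_log (Real.exp_pos _) h1

lemma three_le {p : ℕ} (h : 1 ≤ kap p) : 3 ≤ p := by
  have h1 := exp_exp_le le_rfl h
  have h2 : Real.exp 1 + 1 ≤ Real.exp (Real.exp 1) := Real.add_one_le_exp _
  have h3 := Real.exp_one_gt_d9
  norm_num at h1
  have : (3 : ℝ) ≤ p := by linarith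
  exact_mod_cast this

lemma sum_exp_neg_le (S : Finset ℕ) : ∑ s ∈ S, Real.exp (-(s : ℝ)) ≤ 2 := by
  have h1 : Real.exp (-1) ≤ 1 / 2 := by
    rw [Real.exp_neg, inv_le_comm₀ (Real.exp_pos 1) (by norm_num)]
    linarith [Real.add_one_le_exp 1]
  calc ∑ s ∈ S, Real.exp (-(s : ℝ)) ≤ ∑ s ∈ S, (1 / 2 : ℝ) ^ s := by
        refine sum_le_sum fun s _ => ?_
        rw [show -(s : ℝ) = (s : ℝ) * (-1) by ring, Real.exp_nat_mul]
        exact pow_le_pow_left₀ (Real.exp_pos _).le h1 s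
    _ ≤ ∑' s, (1 / 2 : ℝ) ^ s :=
        summable_geometric_two.sum_le_tsum _ fun s _ => by positivity
    _ = 2 := tsum_geometric_two

lemma band_mass_sharp {C : ℝ} (hC : ∀ k : ℕ, |(∑ p ∈ cell k, (1 : ℝ) / p) - 1| ≤
    C * Real.exp (-(k : ℝ))) (v u : ℕ) :
    |(∑ p ∈ Crude.band v u, (1 : ℝ) / p) - ((u - v : ℕ) : ℝ)| ≤ 2 * |C| := by
  have hd : (↑(Ioc v u) : Set ℕ).PairwiseDisjoint cell := by
    intro a _ b _ hab
    rw [Function.onFun, disjoint_left]
    intro p hpa hpb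
    exact hab ((mem_cell.1 hpa).2.symm.trans (mem_cell.1 hpb).2)
  rw [Crude.band, sum_biUnion hd]
  have e : ((u - v : ℕ) : ℝ) = ∑ _s ∈ Ioc v u, (1 : ℝ) := by simp
  rw [e, ← sum_sub_distrib]
  refine (abs_sum_le_sum_abs _ _).trans ?_
  calc ∑ s ∈ Ioc v u, |(∑ p ∈ cell s, (1 : ℝ) / p) - 1|
      ≤ ∑ s ∈ Ioc v u, |C| * Real.exp (-(s : ℝ)) :=
        sum_le_sum fun s _ => (hC s).trans
          (mul_le_mul_of_nonneg_right (le_abs_self C) (Real.exp_pos _).le)
    _ ≤ 2 * |C| := by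
        rw [← mul_sum, mul_comm 2 |C|]
        exact mul_le_mul_of_nonneg_left (sum_exp_neg_le _) (abs_nonneg C)

/-- A sieve bound for avoiding every subset, thinned at random, bounds a moment of `hits`. -/
lemma thinning (Q S : Finset ℕ) (f : ℕ → ℝ) {z B : ℝ} (hz0 : 0 ≤ z) (hz1 : z ≤ 1)
    (hB : ∀ T ⊆ S, ((Q.filter (fun q => ∀ r ∈ T, ¬ r ∣ q - 1)).card : ℝ) ≤ B * ∏ r ∈ T, f r) :
    ∑ q ∈ Q, z ^ hits S (q - 1) ≤ B * ∏ r ∈ S, ((1 - z) * f r + z) := by
  have e : ∀ n : ℕ, z ^ hits S n =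
      ∑ T ∈ S.powerset, (∏ r ∈ T, if r ∣ n then 0 else 1 - z) * ∏ _r ∈ S \ T, z := by
    intro n
    rw [← prod_add (fun r => if r ∣ n then 0 else 1 - z) (fun _ => z) S, hits,
      ← prod_const, prod_filter]
    refine prod_congr rfl fun r _ => ?_
    split_ifs <;> ring
  simp_rw [e]
  rw [sum_comm, prod_add (fun r => (1 - z) * f r) (fun _ => z) S, mul_sum]
  refine sum_le_sum fun T hT => ?_
  have e2 : ∀ q : ℕ, (∏ r ∈ T, if r ∣ q - 1 then 0 else 1 - z) =
      if (∀ r ∈ T, ¬ r ∣ q - 1) then ∏ _r ∈ T, (1 - z) else 0 := by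
    intro q
    split_ifs with h
    · exact prod_congr rfl fun r hr => if_neg (h r hr)
    · push Not at h
      obtain ⟨r, hr, hd⟩ := h
      exact prod_eq_zero hr (if_pos hd)
  have h0 : 0 ≤ (∏ _r ∈ T, (1 - z)) * ∏ _r ∈ S \ T, z :=
    mul_nonneg (prod_nonneg fun _ _ => by linarith) (prod_nonneg fun _ _ => hz0)
  simp_rw [e2, ite_mul, zero_mul]
  rw [← sum_filter, sum_const, nsmul_eq_mul]
  refine (mul_le_mul_of_nonneg_right (hB T (mem_powerset.1 hT)) h0).trans (le_of_eq ?_)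
  rw [prod_mul_distrib]
  ring

/-- Few primes `q` have few divisors of `q - 1` in a set of small primes. -/
lemma few_hits {C₀ Y : ℝ} (hC₀ : 0 ≤ C₀) (hY : 2 ≤ Y)
    (hsieve : ∀ T : Finset ℕ, (∀ r ∈ T, r.Prime ∧ 3 ≤ r ∧ (r : ℝ) ≤ Y) →
      (((Icc 2 ⌊Y⌋₊).filter (fun q => q.Prime ∧ ∀ r ∈ T, ¬ r ∣ q - 1)).card : ℝ) ≤
        C₀ * Y / Real.log Y * Real.exp (-∑ r ∈ T, (1 : ℝ) / r))
    (S : Finset ℕ) (hS : ∀ r ∈ S, r.Prime ∧ 3 ≤ r ∧ (r : ℝ) ≤ Y) {m t X : ℝ} (ht0 : 0 ≤ t)
    (ht1 : t ≤ 1) (hX : X ≤ ∑ r ∈ S, (1 : ℝ) / r) :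
    (((primesUpTo Y).filter (fun q => (hits S (q - 1) : ℝ) ≤ m)).card : ℝ) ≤
      C₀ * Y / Real.log Y * Real.exp (t * m - (t - t ^ 2) * X + 2) := by
  set B : ℝ := C₀ * Y / Real.log Y
  have hB : 0 ≤ B := div_nonneg (mul_nonneg hC₀ (by linarith)) (Real.log_nonneg (by linarith))
  set z : ℝ := Real.exp (-t) with hz
  have hz1 : z ≤ 1 := Real.exp_le_one_iff.2 (by linarith)
  have hz2 : t - t ^ 2 ≤ 1 - z := by
    have h := Real.add_one_le_exp t
    have h2 : z ≤ 1 / (1 + t) := by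
      rw [hz, Real.exp_neg, one_div]
      exact inv_anti₀ (by linarith) (by linarith)
    have h3 : 1 / (1 + t) ≤ 1 - t + t ^ 2 := by
      rw [div_le_iff₀ (by linarith)]
      nlinarith [pow_nonneg ht0 3]
    linarith
  have main := thinning (primesUpTo Y) S (fun r => Real.exp (-((1 : ℝ) / r))) (B := B)
    (Real.exp_pos (-t)).le hz1 fun T hT => by
      rw [← Real.exp_sum, sum_neg_distrib, primesUpTo, filter_filter]
      exact hsieve T fun r hr => hS r (hT hr)
  have hprod : ∏ r ∈ S, ((1 - z) * Real.exp (-((1 : ℝ) / r)) + z) ≤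
      Real.exp (-(t - t ^ 2) * X + 2) := by
    calc ∏ r ∈ S, ((1 - z) * Real.exp (-((1 : ℝ) / r)) + z)
        ≤ ∏ r ∈ S, Real.exp (-(1 - z) * ((1 : ℝ) / r) + 1 / (r : ℝ) ^ 2) := by
          refine prod_le_prod (fun r _ => ?_) fun r hr => ?_
          · nlinarith [Real.exp_pos (-t), Real.exp_pos (-((1 : ℝ) / r))]
          · refine le_trans ?_ (Real.add_one_le_exp _)
            have hr0 : (0 : ℝ) < r := by exact_mod_cast (hS r hr).1.pos
            set x : ℝ := (1 : ℝ) / r with hx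
            have hx0 : 0 ≤ x := by positivity
            have h1 : Real.exp (-x) ≤ 1 - x + x ^ 2 := by
              rw [Real.exp_neg, inv_le_iff_one_le_mul₀ (Real.exp_pos x)]
              have hq : (0 : ℝ) ≤ 1 - x + x ^ 2 := by nlinarith [sq_nonneg (x - 1)]
              nlinarith [mul_le_mul_of_nonneg_left (Real.add_one_le_exp x) hq, pow_nonneg hx0 3]
            have hx2 : x ^ 2 = 1 / (r : ℝ) ^ 2 := by rw [hx, div_pow, one_pow]
            have h2 := mul_le_mul_of_nonneg_left h1 (show 0 ≤ 1 - z by linarith)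
            have h4 : 0 ≤ z * x ^ 2 := mul_nonneg (Real.exp_pos _).le (sq_nonneg x)
            rw [← hx2]
            linarith
      _ = Real.exp (∑ r ∈ S, (-(1 - z) * ((1 : ℝ) / r) + 1 / (r : ℝ) ^ 2)) :=
          (Real.exp_sum _ _).symm
      _ ≤ _ := by
          refine Real.exp_le_exp.2 ?_
          rw [sum_add_distrib, ← mul_sum]
          have hs0 : (0 : ℝ) ≤ ∑ r ∈ S, (1 : ℝ) / r := sum_nonneg fun r _ => by positivity
          have h1 := mul_le_mul_of_nonneg_right hz2 hs0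
          have h2 := mul_le_mul_of_nonneg_left hX (show 0 ≤ t - t ^ 2 by nlinarith)
          linarith [sum_inv_sq_le S]
  set F := (primesUpTo Y).filter (fun q => (hits S (q - 1) : ℝ) ≤ m) with hF
  have hlow : (F.card : ℝ) * Real.exp (-(t * m)) ≤ ∑ q ∈ primesUpTo Y, z ^ hits S (q - 1) := by
    refine le_trans ?_ (sum_le_sum_of_subset_of_nonneg (s := F) (filter_subset _ _)
      fun q _ _ => pow_nonneg (Real.exp_pos _).le _)
    rw [← nsmul_eq_mul, ← sum_const]
    refine sum_le_sum fun q hq => ?_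
    rw [hz, ← Real.exp_nat_mul]
    refine Real.exp_le_exp.2 ?_
    have := (mem_filter.1 hq).2
    nlinarith
  have h : (F.card : ℝ) * Real.exp (-(t * m)) ≤ B * Real.exp (-(t - t ^ 2) * X + 2) :=
    hlow.trans (main.trans (mul_le_mul_of_nonneg_left hprod hB))
  have e : Real.exp (t * m - (t - t ^ 2) * X + 2) =
      Real.exp (-(t - t ^ 2) * X + 2) * Real.exp (t * m) := by
    rw [← Real.exp_add]; ring_nf
  rw [e, ← mul_assoc]
  refine le_trans (le_of_eq ?_) (mul_le_mul_of_nonneg_right h (Real.exp_pos (t * m)).le)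
  rw [mul_assoc, ← Real.exp_add, neg_add_cancel, Real.exp_zero, mul_one]

lemma pow_add_pow_mul_le {a b : ℝ} (ha : 0 ≤ a) (hb : 0 ≤ b) (j : ℕ) :
    a ^ (j + 1) + ((j : ℝ) + 1) * a ^ j * b ≤ (a + b) ^ (j + 1) := by
  induction j with
  | zero => simp
  | succ j ih =>
    have h1 := mul_le_mul_of_nonneg_right ih (add_nonneg ha hb)
    have e1 : (a + b) ^ (j + 1) * (a + b) = (a + b) ^ (j + 1 + 1) := by ring
    have h2 : 0 ≤ ((j : ℝ) + 1) * a ^ j * b * b := by positivity
    rw [e1] at h1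
    refine le_trans ?_ h1
    push_cast
    ring_nf
    ring_nf at h2
    linarith

/-- The elementary symmetric sum is at most the power of the sum over the factorial. -/
lemma esymm_le (S : Finset ℕ) (f : ℕ → ℝ) (hf : ∀ r ∈ S, 0 ≤ f r) (j : ℕ) :
    (∑ T ∈ S.powersetCard j, ∏ r ∈ T, f r) * (j.factorial : ℝ) ≤ (∑ r ∈ S, f r) ^ j := by
  induction S using Finset.induction generalizing j with
  | empty =>
    cases j with
    | zero => simp
    | succ j => rw [powersetCard_eq_empty.2 (by simp)]; simp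
  | @insert a S ha ih =>
    have hf' : ∀ r ∈ S, 0 ≤ f r := fun r hr => hf r (mem_insert_of_mem hr)
    have ha0 := hf a (mem_insert_self a S)
    cases j with
    | zero => simp
    | succ j =>
      rw [powersetCard_succ_insert ha, sum_union, sum_insert ha]
      swap
      · rw [disjoint_left]
        intro T hT hT'
        obtain ⟨T', -, rfl⟩ := mem_image.1 hT'
        exact ha ((mem_powersetCard.1 hT).1 (mem_insert_self a T'))
      rw [sum_image]
      swap
      · intro T hT T' hT' h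
        have hn : a ∉ T := fun h' => ha ((mem_powersetCard.1 hT).1 h')
        have hn' : a ∉ T' := fun h' => ha ((mem_powersetCard.1 hT').1 h')
        rw [← erase_insert hn, ← erase_insert hn']
        exact congrArg (fun U => U.erase a) h
      have e : ∑ T ∈ S.powersetCard j, ∏ r ∈ insert a T, f r =
          f a * ∑ T ∈ S.powersetCard j, ∏ r ∈ T, f r := by
        rw [mul_sum]
        exact sum_congr rfl fun T hT =>
          prod_insert fun h' => ha ((mem_powersetCard.1 hT).1 h')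
      rw [e, add_mul, add_comm (f a)]
      refine le_trans ?_ (pow_add_pow_mul_le (sum_nonneg hf') ha0 j)
      refine add_le_add (ih hf' (j + 1)) ?_
      have h := mul_le_mul_of_nonneg_left (ih hf' j)
        (show 0 ≤ f a * ((j : ℝ) + 1) by positivity)
      rw [Nat.factorial_succ]
      push_cast
      linarith

/-- A bound on the number of multiples for every `j`-subset bounds the count of many hits. -/
lemma moment (Q S : Finset ℕ) (f : ℕ → ℝ) (hf : ∀ r ∈ S, 0 ≤ f r) {B : ℝ} (hB0 : 0 ≤ B) (j : ℕ)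
    (hB : ∀ T ∈ S.powersetCard j,
      ((Q.filter (fun q => Divides T (q - 1))).card : ℝ) ≤ B * ∏ r ∈ T, f r)
    (G : Finset ℕ) (hG : G ⊆ Q) {x : ℝ} (hx : 0 ≤ x)
    (hhits : ∀ q ∈ G, j ≤ hits S (q - 1) ∧ x + j ≤ (hits S (q - 1) : ℝ) + 1) :
    (G.card : ℝ) * x ^ j ≤ B * (∑ r ∈ S, f r) ^ j := by
  have hchoose : ∀ q ∈ G, x ^ j / (j.factorial : ℝ) ≤ ((hits S (q - 1)).choose j : ℝ) := by
    intro q hq
    obtain ⟨h1, h2⟩ := hhits q hq
    rw [div_le_iff₀ (by exact_mod_cast j.factorial_pos)]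
    have h := Nat.pow_sub_le_descFactorial (hits S (q - 1)) j
    rw [Nat.descFactorial_eq_factorial_mul_choose] at h
    have h' : ((hits S (q - 1) + 1 - j : ℕ) : ℝ) ^ j ≤
        (j.factorial : ℝ) * ((hits S (q - 1)).choose j : ℝ) := by exact_mod_cast h
    rw [Nat.cast_sub (by omega)] at h'
    push_cast at h'
    refine le_trans (pow_le_pow_left₀ hx (by linarith) j) (h'.trans (le_of_eq ?_))
    ring
  have hcount : (∑ q ∈ Q, ((hits S (q - 1)).choose j : ℝ)) ≤
      B * ∑ T ∈ S.powersetCard j, ∏ r ∈ T, f r := by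
    have e : ∀ q : ℕ, ((hits S (q - 1)).choose j : ℝ) =
        ∑ T ∈ S.powersetCard j, if Divides T (q - 1) then (1 : ℝ) else 0 := by
      intro q
      rw [hits, ← card_powersetCard, sum_boole]
      congr 2
      ext T
      refine ⟨fun h => ?_, fun h => ?_⟩
      · obtain ⟨h1, h2⟩ := mem_powersetCard.1 h
        exact mem_filter.2 ⟨mem_powersetCard.2 ⟨fun r hr => (mem_filter.1 (h1 hr)).1, h2⟩,
          fun r hr => (mem_filter.1 (h1 hr)).2⟩
      · obtain ⟨h1, h3⟩ := mem_filter.1 h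
        obtain ⟨h1, h2⟩ := mem_powersetCard.1 h1
        exact mem_powersetCard.2 ⟨fun r hr => mem_filter.2 ⟨h1 hr, h3 r hr⟩, h2⟩
    simp_rw [e]
    rw [sum_comm, mul_sum]
    refine sum_le_sum fun T hT => ?_
    rw [sum_boole]
    exact hB T hT
  have h : (G.card : ℝ) * (x ^ j / (j.factorial : ℝ)) ≤
      B * ∑ T ∈ S.powersetCard j, ∏ r ∈ T, f r := by
    refine le_trans ?_ hcount
    refine le_trans ?_ (sum_le_sum_of_subset_of_nonneg hG fun _ _ _ => Nat.cast_nonneg _)
    rw [← nsmul_eq_mul, ← sum_const]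
    exact sum_le_sum hchoose
  have hfac : (0 : ℝ) < (j.factorial : ℝ) := by exact_mod_cast j.factorial_pos
  calc (G.card : ℝ) * x ^ j = (G.card : ℝ) * (x ^ j / (j.factorial : ℝ)) * j.factorial := by
        field_simp
    _ ≤ B * (∑ T ∈ S.powersetCard j, ∏ r ∈ T, f r) * j.factorial :=
        mul_le_mul_of_nonneg_right h hfac.le
    _ ≤ B * (∑ r ∈ S, f r) ^ j := by
        rw [mul_assoc]
        exact mul_le_mul_of_nonneg_left (esymm_le S f hf j) hB0

lemma totient_prod_primes {T : Finset ℕ} (hT : ∀ r ∈ T, r.Prime) :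
    (∏ r ∈ T, r).totient = ∏ r ∈ T, (r - 1) := by
  induction T using Finset.induction with
  | empty => simp
  | @insert a T ha ih =>
    have hT' : ∀ r ∈ T, r.Prime := fun r hr => hT r (mem_insert_of_mem hr)
    have hap := hT a (mem_insert_self a T)
    rw [prod_insert ha, prod_insert ha, Nat.totient_mul, Nat.totient_prime hap, ih hT']
    refine Nat.Coprime.prod_right fun r hr => ?_
    exact (Nat.coprime_primes hap (hT' r hr)).2 fun h => ha (h ▸ hr)

/-- Primes `q ≤ Y` with `q - 1` divisible by all members of a small set of primes. -/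
lemma prog_count {C₁ Y : ℝ} (hC₁ : 0 ≤ C₁) (hY : 4 ≤ Y)
    (hsieve : ∀ (Y' : ℝ), 2 ≤ Y' → ∀ d : ℕ, 0 < d →
      (((Icc 1 ⌊Y'⌋₊).filter (fun n => (d * n + 1).Prime)).card : ℝ) ≤
        C₁ * Y' / Real.log Y' * ((d : ℝ) / d.totient))
    (T : Finset ℕ) (hT : ∀ r ∈ T, r.Prime)
    (hsmall : ∑ r ∈ T, Real.log r ≤ Real.log Y / 2) :
    (((primesUpTo Y).filter (fun q => Divides T (q - 1))).card : ℝ) ≤
      2 * C₁ * Y / Real.log Y * ∏ r ∈ T, (1 / ((r : ℝ) - 1)) := by
  set d : ℕ := ∏ r ∈ T, r with hd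
  have hd0 : 0 < d := prod_pos fun r hr => (hT r hr).pos
  have hdR : (0 : ℝ) < d := by exact_mod_cast hd0
  have hlog : Real.log d ≤ Real.log Y / 2 := by
    rw [hd, Nat.cast_prod, Real.log_prod (fun r hr => by exact_mod_cast (hT r hr).ne_zero)]
    exact hsmall
  have hlY : 0 < Real.log Y := Real.log_pos (by linarith)
  have hY' : Real.log Y / 2 ≤ Real.log (Y / d) := by
    rw [Real.log_div (by linarith) hdR.ne']
    linarith
  have hY2 : 2 ≤ Y / (d : ℝ) := by
    rw [← Real.exp_log (show (0 : ℝ) < Y / d by positivity)]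
    refine le_trans ?_ (Real.exp_le_exp.2 hY')
    have h4 : Real.log 4 ≤ Real.log Y := Real.log_le_log (by norm_num) hY
    refine le_trans ?_ (Real.exp_le_exp.2 (show Real.log 4 / 2 ≤ Real.log Y / 2 by linarith))
    rw [show Real.log 4 / 2 = Real.log 2 by
      rw [show (4 : ℝ) = 2 ^ 2 by norm_num, Real.log_pow]; ring, Real.exp_log two_pos]
  have hcard : ((primesUpTo Y).filter (fun q => Divides T (q - 1))).card ≤
      ((Icc 1 ⌊Y / d⌋₊).filter (fun n => (d * n + 1).Prime)).card := by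
    have key : ∀ q ∈ (primesUpTo Y).filter (fun q => Divides T (q - 1)),
        d * ((q - 1) / d) + 1 = q ∧ q.Prime ∧ (q : ℝ) ≤ Y := by
      intro q hq
      obtain ⟨hq1, hq2⟩ := mem_filter.1 hq
      obtain ⟨hqp, hqY⟩ := (mem_primesUpTo (by linarith)).1 hq1
      have hdvd : d ∣ q - 1 :=
        Finset.prod_primes_dvd _ (fun r hr => (hT r hr).prime) hq2
      rw [Nat.mul_div_cancel' hdvd]
      exact ⟨by have := hqp.two_le; omega, hqp, hqY⟩
    refine card_le_card_of_injOn (fun q => (q - 1) / d) (fun q hq => ?_) (fun a ha b hb hab => ?_)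
    · obtain ⟨he, hqp, hqY⟩ := key q hq
      refine mem_filter.2 ⟨mem_Icc.2 ⟨?_, ?_⟩, by rw [he]; exact hqp⟩
      · rcases Nat.eq_zero_or_pos ((q - 1) / d) with h | h
        · rw [h] at he
          have := hqp.two_le
          omega
        · exact h
      · rw [Nat.le_floor_iff (by positivity), le_div_iff₀ hdR]
        have h1 : (q - 1) / d * d ≤ q :=
          (Nat.div_mul_le_self _ _).trans (Nat.sub_le q 1)
        have h2 : (((q - 1) / d : ℕ) : ℝ) * d ≤ q := by exact_mod_cast h1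
        linarith
    · simp only at hab
      rw [← (key a ha).1, ← (key b hb).1, hab]
  refine le_trans (by exact_mod_cast hcard) ((hsieve _ hY2 d hd0).trans ?_)
  have htot : (d.totient : ℝ) = ∏ r ∈ T, ((r : ℝ) - 1) := by
    rw [hd, totient_prod_primes hT, Nat.cast_prod]
    exact prod_congr rfl fun r hr => by rw [Nat.cast_sub (hT r hr).one_le, Nat.cast_one]
  have htot0 : (0 : ℝ) < (d.totient : ℝ) := by exact_mod_cast Nat.totient_pos.2 hd0
  rw [prod_div_distrib, prod_const_one, ← htot]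
  calc C₁ * (Y / d) / Real.log (Y / d) * ((d : ℝ) / d.totient)
      ≤ C₁ * (Y / d) / (Real.log Y / 2) * ((d : ℝ) / d.totient) := by
        gcongr
    _ = 2 * C₁ * Y / Real.log Y * (1 / d.totient) := by
        field_simp

/-- Few integers have very many prime factors. -/
lemma many_factors {C : ℝ} (hC : ∀ k : ℕ, |(∑ p ∈ cell k, (1 : ℝ) / p) - 1| ≤
    C * Real.exp (-(k : ℝ))) (k : ℕ) (Y : ℝ) (M : Finset ℕ)
    (hY : 0 ≤ Y) (hM : ∀ n ∈ M, 0 < n ∧ (n : ℝ) ≤ Y ∧ Smooth k n ∧ 20 * (k + 1) < bigOm n) :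
    (M.card : ℝ) ≤ Y * Real.exp (-(40 / 7 : ℝ) * ((k : ℝ) + 1) +
      4 * ((k : ℝ) + 1 + 2 * |C|)) := by
  set S : Finset ℕ := (range (k + 1)).biUnion cell with hS
  have hSp : ∀ p ∈ S, p.Prime := by
    intro p hp
    obtain ⟨s, -, hs⟩ := mem_biUnion.1 hp
    exact (mem_cell.1 hs).1
  have hsub : ∀ n ∈ M, 0 < n ∧ n.primeFactors ⊆ S := fun n hn =>
    ⟨(hM n hn).1, fun p hp => mem_biUnion.2 ⟨kap p,
      mem_range.2 (Nat.lt_succ_of_le ((hM n hn).2.2.1 p hp)),
      mem_cell.2 ⟨(Nat.mem_primeFactors.1 hp).1, rfl⟩⟩⟩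
  have h2 : ∀ p ∈ S, (2 : ℝ) ≤ p := fun p hp => by exact_mod_cast (hSp p hp).two_le
  have hE := euler_sum (fun _ => (4 / 3 : ℝ)) S hSp
    (fun p hp => ⟨by norm_num, by linarith [h2 p hp]⟩) M hsub
  have hL : (2 / 7 : ℝ) ≤ Real.log (4 / 3) := by
    have h7 : Real.exp 2 ≤ (4 / 3 : ℝ) ^ 7 := by
      have e : Real.exp 2 = Real.exp 1 * Real.exp 1 := by rw [← Real.exp_add]; norm_num
      rw [e]
      nlinarith [Real.exp_one_lt_d9, Real.exp_pos 1]
    have := (Real.le_log_iff_exp_le (by positivity)).2 h7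
    rw [Real.log_pow] at this
    push_cast at this
    linarith
  have hwt : ∀ n ∈ M, Real.exp ((40 / 7 : ℝ) * ((k : ℝ) + 1)) / Y ≤
      wt (fun _ => (4 / 3 : ℝ)) n / n := by
    intro n hn
    obtain ⟨hn0, hnY, -, hom⟩ := hM n hn
    have hnR : (0 : ℝ) < n := by exact_mod_cast hn0
    have e : wt (fun _ => (4 / 3 : ℝ)) n = (4 / 3 : ℝ) ^ bigOm n := by
      simp [wt, bigOm, List.map_const', List.prod_replicate]
    rw [e, ← Real.exp_log (show (0 : ℝ) < (4 / 3) ^ bigOm n by positivity), Real.log_pow]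
    refine le_trans (div_le_div_of_nonneg_left (Real.exp_pos _).le hnR hnY)
      (div_le_div_of_nonneg_right (Real.exp_le_exp.2 ?_) hnR.le)
    have : ((20 * (k + 1) : ℕ) : ℝ) ≤ bigOm n := by exact_mod_cast hom.le
    push_cast at this
    nlinarith [mul_le_mul_of_nonneg_left hL (show (0 : ℝ) ≤ bigOm n from Nat.cast_nonneg _)]
  have hP : ∏ p ∈ S, (1 - (4 / 3 : ℝ) / p)⁻¹ ≤ Real.exp (4 * ((k : ℝ) + 1 + 2 * |C|)) := by
    calc ∏ p ∈ S, (1 - (4 / 3 : ℝ) / p)⁻¹ ≤ ∏ p ∈ S, Real.exp (4 * ((1 : ℝ) / p)) := by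
          refine prod_le_prod (fun p hp => inv_nonneg.2 ?_) fun p hp => ?_
          · rw [sub_nonneg, div_le_one (by linarith [h2 p hp])]
            linarith [h2 p hp]
          · refine le_trans ?_ (Real.add_one_le_exp _)
            have hp0 : (0 : ℝ) < p := by linarith [h2 p hp]
            have hx : (1 : ℝ) / p ≤ 1 / 2 := one_div_le_one_div_of_le two_pos (h2 p hp)
            have hx0 : (0 : ℝ) < 1 / p := by positivity
            rw [show (4 / 3 : ℝ) / p = 4 / 3 * (1 / p) by ring,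
              inv_le_iff_one_le_mul₀ (by linarith)]
            nlinarith
      _ = Real.exp (4 * ∑ p ∈ S, (1 : ℝ) / p) := by rw [← Real.exp_sum, mul_sum]
      _ ≤ _ := by
          refine Real.exp_le_exp.2 (mul_le_mul_of_nonneg_left ?_ (by norm_num))
          rw [hS, sum_biUnion]
          swap
          · intro a _ b _ hab
            rw [Function.onFun, disjoint_left]
            intro p hpa hpb
            exact hab ((mem_cell.1 hpa).2.symm.trans (mem_cell.1 hpb).2)
          calc ∑ s ∈ range (k + 1), ∑ p ∈ cell s, (1 : ℝ) / p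
              ≤ ∑ s ∈ range (k + 1), (1 + |C| * Real.exp (-(s : ℝ))) := by
                refine sum_le_sum fun s _ => ?_
                have h := (abs_le.1 (hC s)).2
                have := mul_le_mul_of_nonneg_right (le_abs_self C) (Real.exp_pos (-(s : ℝ))).le
                linarith
            _ ≤ _ := by
                rw [sum_add_distrib, ← mul_sum]
                simp only [sum_const, card_range, nsmul_eq_mul, mul_one, Nat.cast_add,
                  Nat.cast_one]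
                nlinarith [mul_le_mul_of_nonneg_left (sum_exp_neg_le (range (k + 1)))
                  (abs_nonneg C)]
  have h := (sum_le_sum hwt).trans (hE.trans hP)
  rw [sum_const, nsmul_eq_mul] at h
  rcases M.eq_empty_or_nonempty with rfl | ⟨n, hn⟩
  · simp only [card_empty, Nat.cast_zero]
    positivity
  have hY0 : 0 < Y := lt_of_lt_of_le (by exact_mod_cast (hM n hn).1) (hM n hn).2.1
  rw [mul_div_assoc', div_le_iff₀ hY0] at h
  have e : Real.exp (-(40 / 7 : ℝ) * ((k : ℝ) + 1) + 4 * ((k : ℝ) + 1 + 2 * |C|)) *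
      Real.exp ((40 / 7 : ℝ) * ((k : ℝ) + 1)) = Real.exp (4 * ((k : ℝ) + 1 + 2 * |C|)) := by
    rw [← Real.exp_add]; ring_nf
  rw [← e] at h
  refine le_of_mul_le_mul_right ?_ (Real.exp_pos ((40 / 7 : ℝ) * ((k : ℝ) + 1)))
  linarith

end Vale.Agent.P031.Normality
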